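import Vale.Agent.P022G.Sel.All

/-!
# P022S, block Sel: the relative tangent space at a curve without regular elements (statements)
-/

set_option linter.all false

noncomputable section

namespace P022S.Sel

open NumberField
open Vale.Agent.P022
open Vale.Agent.P027M.S (Inert)
open Vale.Agent.P022D.Sel (M2 IsDec Ginf)
open Vale.Agent.P022E.GW (Ov Fb Gn Op Ur)
open P022G.Sel

section

variable {R : Type} [CommRing R]

/-- the matrix is scalar modulo `x` -/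
def Sc (x : R) (Y : M2 R) : Prop := x ∣ Y 0 1 ∧ x ∣ Y 1 0 ∧ x ∣ Y 0 0 - Y 1 1

/-- a curve: continuous, unramified outside `T`, determinant one, absolutely irreducible on
`Ginf`, no trace is a unit -/
structure Nice0 (t : R) (ρ : GQ →* GL (Fin 2) R) (T : Finset ℕ) (D : ℕ → Set GQ) : Prop where
  lv : ∀ N, Lv (rd (tI t N) ρ) T D
  det : ∀ g, (mr ρ g).det = 1
  irr : ∃ δ : R, δ ≠ 0 ∧ ∀ Z : M2 R, δ • Z ∈ Submodule.span R (mr ρ '' (Ginf : Set GQ))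
  nu : ∀ g, ¬ IsUnit (mr ρ g).trace

/-- `q` is a prime outside `A` with a Frobenius element in `σ ^ m U`, `m` odd -/
def Aux0 (U : Subgroup GQ) (A : Finset ℕ) (σ : GQ) (q : ℕ) : Prop :=
  q.Prime ∧ q ∉ A ∧ ∃ (φ : GQ) (m : ℕ), IsFrob q φ ∧ Odd m ∧ φ⁻¹ * σ ^ m ∈ U

/-- the tangent space bound; `r` and `C` do not depend on `N` -/
def SEL0 (t : R) (ρ : GQ →* GL (Fin 2) R) (T : Finset ℕ) (D : ℕ → Set GQ) : Prop :=
  ∃ (T₁ : Finset ℕ) (C r e : ℕ), T ⊆ T₁ ∧ ∀ N : ℕ, ∃ (σ : Fin r → GQ) (U : Subgroup GQ),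
    IsOpen (U : Set GQ) ∧ U.Normal ∧ (∀ g ∈ U, rd (tI t (N + e + 1)) ρ g = 1) ∧
    (∀ i, σ i ∈ Ginf ∧ ¬ Sc (t ^ (e + 1)) (mr ρ (σ i))) ∧
    ∀ q : Fin r → ℕ, Function.Injective q → (∀ i, Aux0 U T₁ (σ i) (q i)) →
      (TanS (rd (tI t N) ρ) T (Finset.univ.image q) D).Finite ∧
      Nat.card (TanS (rd (tI t N) ρ) T (Finset.univ.image q) D) ≤
        C * Nat.card (R ⧸ tI t N) ^ (2 * r + 5)

end

/-- **reciprocity** at arbitrary primes -/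
def RECS : Prop := ∀ (R : Type) [CommRing R] [Finite R] (ρ : GQ →* GL (Fin 2) R)
  (T Q : Finset ℕ) (D : ℕ → Set GQ) (P : ℕ → Ideal (𝓞 Qb)) (τ φ : ℕ → GQ)
  (c y : GQ → M2 R) (a : ℕ → M2 R), (2 : R) = 0 → Lv ρ T D →
  (∀ q ∈ Q, q ∉ T ∧ Ov q (P q) ∧ Gn q (P q) (τ q) ∧ Fb q (P q) (φ q)) →
  TanR ρ T Q D c a → y ∈ H1R ρ T → ∑ q ∈ Q, (c (τ q) * y (φ q)).trace = 0

/-- the classes which are trivial at a large set of places -/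
def SHA0 : Prop := ∀ (A : Type) [CommRing A] [IsDomain A] [IsDiscreteValuationRing A] [CharP A 2]
  (t : A) (ρ : GQ →* GL (Fin 2) A) (T : Finset ℕ) (D : ℕ → Set GQ), Irreducible t →
  Finite (A ⧸ tI t 1) → Nice0 t ρ T D →
  ∃ (T₁ : Finset ℕ) (D₁ : ℕ → Set GQ) (C : ℕ), T ⊆ T₁ ∧ (∀ l ∈ T, D₁ l = D l) ∧
    (∀ l ∈ T₁, IsDec l (D₁ l)) ∧ ∀ N : ℕ,
      Nat.card (TanS (rd (tI t N) ρ) T₁ ∅ D₁) ≤
        C * (Nat.card (FxR (rd (tI t N) ρ) T₁ D₁) * Nat.card (A ⧸ tI t N) ^ 3)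

/-- finitely many non scalar elements kill the dual classes -/
def KIL0 : Prop := ∀ (A : Type) [CommRing A] [IsDomain A] [IsDiscreteValuationRing A] [CharP A 2]
  (t : A) (ρ : GQ →* GL (Fin 2) A) (T : Finset ℕ) (D : ℕ → Set GQ), Irreducible t →
  Finite (A ⧸ tI t 1) → Nice0 t ρ T D → ∃ C r e : ℕ, ∀ N : ℕ, ∃ σ : Fin r → GQ,
    (∀ i, σ i ∈ Ginf ∧ ¬ Sc (t ^ (e + 1)) (mr ρ (σ i))) ∧
    Nat.card {y : GQ → M2 (A ⧸ tI t N) // y ∈ H1R (rd (tI t N) ρ) T ∧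
      ∀ i, (y (σ i)).trace = 0 ∧ (y (σ i) * mr (rd (tI t N) ρ) (σ i)).trace = 0} ≤
      C * Nat.card (A ⧸ tI t N) ^ 5

/-- **the output of the block** -/
def SELS : Prop := ∀ (A : Type) [CommRing A] [IsDomain A] [IsDiscreteValuationRing A] [CharP A 2]
  (t : A) (ρ : GQ →* GL (Fin 2) A) (T : Finset ℕ) (D : ℕ → Set GQ), Irreducible t →
  Finite (A ⧸ tI t 1) → Nice0 t ρ T D → LBc t ρ T D → SEL0 t ρ T D

theorem Nice0.mono {R : Type} [CommRing R] {t : R} {ρ : GQ →* GL (Fin 2) R} {T T₁ : Finset ℕ}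
    {D D₁ : ℕ → Set GQ} (h : Nice0 t ρ T D) (hT : T ⊆ T₁) (hD : ∀ l ∈ T₁, IsDec l (D₁ l)) :
    Nice0 t ρ T₁ D₁ :=
  ⟨fun N => ⟨(h.lv N).opn, hT (h.lv N).h0, hT (h.lv N).h2, hD,
    fun l hl => (h.lv N).unr l fun k => hl (hT k)⟩, h.det, h.irr, h.nu⟩

/-- the auxiliary primes exist -/
theorem aux0 (U : Subgroup GQ) (hU : IsOpen (U : Set GQ)) (A : Finset ℕ) (σ : GQ) :
    ∃ q, Aux0 U A σ q := by
  obtain ⟨q, φ, k, m, o, q1, q2, q3, k1, -, m1, hv, -⟩ :=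
    Vale.Agent.P022D.Sel.AuxP.key Vale.Agent.P027M.TW.dens _ hU A σ 3 Nat.prime_three
      (by norm_num)
  exact ⟨q, q1, q2, φ, k * m, q3, k1.mul m1, hv⟩

end P022S.Sel
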