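import Vale.Agent.P022S.Sel.KilH89
import Vale.Agent.P022S.Lb

/-!
# P022S, block Sel: the bound at one level
-/

set_option linter.all false

noncomputable section

namespace P022S.Sel.H89

open Vale.Agent.P022
open Vale.Agent.P022D.Sel (M2 Ginf)
open P022G.Sel P022G.Sel.Bas

theorem aux0_mono {U U' : Subgroup GQ} [U.Normal] {A A' : Finset ℕ} {σ u : GQ} {q : ℕ}
    (hU : U' ≤ U) (hA : A ⊆ A') (hu : u ∈ U) (h : Aux0 U' A' (σ * u) q) : Aux0 U A σ q := by
  obtain ⟨a, b, φ, m, c, d, e⟩ := h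
  refine ⟨a, fun k => b (hA k), φ, m, c, d, QuotientGroup.eq.1 ?_⟩
  rw [QuotientGroup.eq.2 (hU e), QuotientGroup.mk_pow, QuotientGroup.mk_pow,
    QuotientGroup.mk_mul_of_mem σ hu]

variable {A : Type} [CommRing A] [IsDomain A] [IsDiscreteValuationRing A] {t : A}

theorem lt_card (ht : Irreducible t) (hf : Finite (A ⧸ tI t 1)) (c : ℕ) :
    c < Nat.card (A ⧸ tI t c) := by
  haveI := fin_tI hf c
  have key : ∀ i j : ℕ, i < j → j ≤ c →
      Ideal.Quotient.mk (tI t c) (t ^ i) ≠ Ideal.Quotient.mk (tI t c) (t ^ j) := fun i j h1 h2 e => by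
    have h3 : t ^ j ∣ t ^ i - t ^ j :=
      (pow_dvd_pow t h2).trans (Ideal.mem_span_singleton.1 (Ideal.Quotient.eq.1 e))
    have h4 : t ^ j ∣ t ^ i := by simpa using dvd_add h3 (dvd_refl (t ^ j))
    rw [pow_dvd_pow_iff ht.ne_zero ht.not_isUnit] at h4
    omega
  have := Nat.card_le_card_of_injective
    (fun i : Fin (c + 1) => Ideal.Quotient.mk (tI t c) (t ^ (i : ℕ))) fun i j e => by
      rcases lt_trichotomy (i : ℕ) j with h | h | h
      · exact absurd e (key i j h (Nat.lt_succ_iff.1 j.2))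
      · exact Fin.ext h
      · exact absurd e.symm (key j i h (Nat.lt_succ_iff.1 i.2))
  rwa [Nat.card_eq_fintype_card, Fintype.card_fin] at this

variable [CharP A 2] {ρ : GQ →* GL (Fin 2) A} {T : Finset ℕ} {D : ℕ → Set GQ}

theorem sel0 (ht : Irreducible t) (hf : Finite (A ⧸ tI t 1)) (hN : Nice0 t ρ T D) :
    SEL0 t ρ T D := sels A t ρ T D ht hf hN (P022S.Lb.lbS A t ρ T D ht hf hN)

/-- **the bound at one level** -/
theorem sel2 (ht : Irreducible t) (hf : Finite (A ⧸ tI t 1)) (hN : Nice0 t ρ T D) :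
    ∃ (T₁ : Finset ℕ) (N r : ℕ) (σ : Fin r → GQ) (U : Subgroup GQ), T ⊆ T₁ ∧
      IsOpen (U : Set GQ) ∧ U.Normal ∧ (∀ i, σ i ∈ Ginf) ∧
      ∀ q : Fin r → ℕ, Function.Injective q → (∀ i, Aux0 U T₁ (σ i) (q i)) →
        (TanS (rd (tI t N) ρ) T (Finset.univ.image q) D).Finite ∧
        Nat.card (TanS (rd (tI t N) ρ) T (Finset.univ.image q) D) <
          Nat.card (A ⧸ tI t N) ^ (2 * r + 6) := by
  obtain ⟨T₁, C, r, e, a, h⟩ := sel0 ht hf hN
  obtain ⟨σ, U, b1, b2, -, b4, b5⟩ := h C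
  refine ⟨T₁, C, r, σ, U, a, b1, b2, fun i => (b4 i).1, fun q h1 h2 => ⟨(b5 q h1 h2).1, ?_⟩⟩
  have := lt_card ht hf C
  refine (b5 q h1 h2).2.trans_lt ?_
  rw [pow_succ' _ (2 * r + 5)]
  exact Nat.mul_lt_mul_of_pos_right this (Nat.pow_pos (by omega))

end P022S.Sel.H89
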