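import Vale.Agent.P022S.Sel.Sha

/-!
# P022S, block Sel: the tangent space bound at a curve from the lower bound
-/

set_option linter.all false

noncomputable section

namespace P022S.Sel

open NumberField
open Vale.Agent.P022
open Vale.Agent.P027M.S (Inert)
open Vale.Agent.P022D.Sel (M2 IsDec Ginf Stab)
open Vale.Agent.P022E.GW (Ov Fb Gn Op Ur)
open Vale.Agent.P022G
open P022G.Sel P022G.Sel.Bas
open P022G.Sel.Sh hiding one_prime detect
open Vale.Agent.P022G.Sel.H44 (Soc dual_map)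

section
variable {R : Type} [CommRing R]

/-- one of the three coordinates of `Y` modulo scalars divides `x` -/
def Ns (x : R) (Y : M2 R) : Prop := Y 0 1 ∣ x ∨ Y 1 0 ∣ x ∨ Y 0 0 - Y 1 1 ∣ x

theorem cent0 {x : R} {φ : M2 R} (h : Ns x φ) : ∃ α β : M2 R →ₗ[R] R,
    ∀ X : M2 R, X * φ = φ * X → x • X = α X • (1 : M2 R) + β X • φ := by
  have key : ∀ β : M2 R →ₗ[R] R, (∀ X : M2 R, X * φ = φ * X → x * X 0 1 = β X * φ 0 1 ∧
      x * X 1 0 = β X * φ 1 0 ∧ x * (X 0 0 - X 1 1) = β X * (φ 0 0 - φ 1 1)) →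
      ∃ α β : M2 R →ₗ[R] R,
        ∀ X : M2 R, X * φ = φ * X → x • X = α X • (1 : M2 R) + β X • φ := fun β hβ => by
    refine ⟨x • Matrix.entryLinearMap R R 1 1 - φ 1 1 • β, β, fun X hX => ?_⟩
    obtain ⟨a, b, c⟩ := hβ X hX
    ext i j
    fin_cases i <;> fin_cases j <;> simp
    · linear_combination c
    · exact a
    · exact b
    · ring
  have e : ∀ X : M2 R, X * φ = φ * X → X 0 1 * φ 1 0 = φ 0 1 * X 1 0 ∧
      (X 0 0 - X 1 1) * φ 0 1 = X 0 1 * (φ 0 0 - φ 1 1) ∧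
      (X 0 0 - X 1 1) * φ 1 0 = X 1 0 * (φ 0 0 - φ 1 1) := fun X hX => by
    have h00 := congrFun (congrFun hX 0) 0
    have h01 := congrFun (congrFun hX 0) 1
    have h10 := congrFun (congrFun hX 1) 0
    simp only [Matrix.mul_apply, Fin.sum_univ_two] at h00 h01 h10
    exact ⟨by linear_combination h00, by linear_combination h01, by linear_combination -h10⟩
  rcases h with ⟨w, rfl⟩ | ⟨w, rfl⟩ | ⟨w, rfl⟩
  · refine key (w • Matrix.entryLinearMap R R 0 1) fun X hX => ?_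
    obtain ⟨a, b, c⟩ := e X hX
    simp only [LinearMap.smul_apply, Matrix.entryLinearMap_apply, smul_eq_mul]
    exact ⟨by ring, by linear_combination -w * a, by linear_combination w * b⟩
  · refine key (w • Matrix.entryLinearMap R R 1 0) fun X hX => ?_
    obtain ⟨a, b, c⟩ := e X hX
    simp only [LinearMap.smul_apply, Matrix.entryLinearMap_apply, smul_eq_mul]
    exact ⟨by linear_combination w * a, by ring, by linear_combination w * c⟩
  · refine key (w • (Matrix.entryLinearMap R R 0 0 - Matrix.entryLinearMap R R 1 1)) fun X hX => ?_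
    obtain ⟨a, b, c⟩ := e X hX
    simp only [LinearMap.smul_apply, LinearMap.sub_apply, Matrix.entryLinearMap_apply, smul_eq_mul]
    exact ⟨by linear_combination -w * b, by linear_combination -w * c, by ring⟩

/-- the duality count for matrices which are not scalar -/
theorem dual0 [Finite R] (h2 : (2 : R) = 0) (hs : Soc R) {ι : Type} [Fintype ι] {M N : Type}
    [AddCommGroup M] [Module R M] [Finite M] [AddCommGroup N] [Module R N] (x : R)
    (φ : ι → M2 R) (hφ : ∀ i, Ns x (φ i)) (f : M →ₗ[R] (ι → M2 R)) (g : N →ₗ[R] (ι → M2 R))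
    (hf : ∀ m i, f m i * φ i = φ i * f m i) (h : ∀ m y, ∑ i, (f m i * g y i).trace = 0) :
    Nat.card M * Nat.card N ≤ Nat.card R ^ (2 * Fintype.card ι) *
      (Nat.card {m : M // f m = 0} * Nat.card {z : R // x * z = 0} ^ (4 * Fintype.card ι) *
        Nat.card {y : N // ∀ i, (g y i).trace = 0 ∧ (φ i * g y i).trace = 0}) := by
  classical
  choose α β hαβ using fun i => cent0 (hφ i)
  let f' : M →ₗ[R] (ι ⊕ ι → R) :=
    { toFun := fun m => Sum.elim (fun i => α i (f m i)) (fun i => β i (f m i))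
      map_add' := fun a b => by
        funext k
        rcases k with i | i <;> simp only [map_add, Pi.add_apply, Sum.elim_inl, Sum.elim_inr]
      map_smul' := fun a b => by
        funext k
        rcases k with i | i <;>
          simp only [map_smul, Pi.smul_apply, Sum.elim_inl, Sum.elim_inr, RingHom.id_apply] }
  let g' : N →ₗ[R] (ι ⊕ ι → R) :=
    { toFun := fun y => Sum.elim (fun i => (g y i).trace) (fun i => (φ i * g y i).trace)
      map_add' := fun a b => by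
        funext k
        rcases k with i | i <;>
          simp only [map_add, Pi.add_apply, Sum.elim_inl, Sum.elim_inr, mul_add, Matrix.trace_add]
      map_smul' := fun a b => by
        funext k
        rcases k with i | i <;>
          simp only [map_smul, Pi.smul_apply, Sum.elim_inl, Sum.elim_inr, Matrix.mul_smul,
            Matrix.trace_smul, smul_eq_mul, RingHom.id_apply] }
  have key := dual_map h2 hs f' g' (fun m y => by
    rw [Fintype.sum_sum_type, ← Finset.sum_add_distrib, ← mul_zero x, ← h m y, Finset.mul_sum]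
    refine Finset.sum_congr rfl fun i _ => ?_
    show α i (f m i) * (g y i).trace + β i (f m i) * (φ i * g y i).trace = _
    rw [← smul_eq_mul x, ← Matrix.trace_smul, ← smul_mul_assoc, hαβ i _ (hf m i), add_mul,
      Matrix.smul_mul, Matrix.smul_mul, one_mul, Matrix.trace_add, Matrix.trace_smul,
      Matrix.trace_smul, smul_eq_mul, smul_eq_mul])
  have e1 : Nat.card (LinearMap.ker f') ≤
      Nat.card {m : M // f m = 0} * Nat.card {z : R // x * z = 0} ^ (4 * Fintype.card ι) := by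
    have k : ∀ m : {m : M // m ∈ LinearMap.ker f'}, ∀ i a b, x * f m.1 i a b = 0 := fun m i a b => by
      have a1 : α i (f m.1 i) = 0 := congrFun m.2 (Sum.inl i)
      have a2 : β i (f m.1 i) = 0 := congrFun m.2 (Sum.inr i)
      have := hαβ i _ (hf m.1 i)
      rw [a1, a2, zero_smul, zero_smul, add_zero] at this
      exact congrFun (congrFun this a) b
    refine (KillH9.fib (fun m : M => m ∈ LinearMap.ker f') (fun m => f m = 0)
      (B := ι × Fin 2 × Fin 2 → {z : R // x * z = 0})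
      (fun m p => ⟨f m.1 p.1 p.2.1 p.2.2, k m _ _ _⟩) fun a b e => ?_).trans (le_of_eq ?_)
    · rw [map_sub, sub_eq_zero]
      funext i
      ext u v
      exact congrArg Subtype.val (congrFun e (i, u, v))
    · rw [Nat.card_fun, Nat.card_eq_fintype_card (α := ι × Fin 2 × Fin 2), Fintype.card_prod,
        Fintype.card_prod, Fintype.card_fin, mul_comm (Fintype.card ι)]
  have e2 : Nat.card (LinearMap.ker g') =
      Nat.card {y : N // ∀ i, (g y i).trace = 0 ∧ (φ i * g y i).trace = 0} := by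
    refine Nat.card_congr (Equiv.subtypeEquivRight fun y => ?_)
    rw [LinearMap.mem_ker]
    constructor
    · intro hy i
      exact ⟨congrFun hy (Sum.inl i), congrFun hy (Sum.inr i)⟩
    · intro hy
      funext k
      rcases k with i | i
      · exact (hy i).1
      · exact (hy i).2
  rw [e2, Fintype.card_sum, ← two_mul] at key
  exact key.trans (Nat.mul_le_mul_left _ (Nat.mul_le_mul_right _ e1))

theorem of_pow0 (h2 : (2 : R) = 0) {ρ : GQ →* GL (Fin 2) R} {y : GQ → M2 R} (hy : Co ρ y) {σ : GQ}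
    (hd : (mr ρ σ).det = 1) {m : ℕ} (hm : Odd m) (hu : ∀ w, IsUnit (1 + (mr ρ σ).trace * w))
    (h1 : (y (σ ^ m)).trace = 0) (h3 : (mr ρ (σ ^ m) * y (σ ^ m)).trace = 0) :
    (y σ).trace = 0 ∧ (y σ * mr ρ σ).trace = 0 := by
  have e : mr ρ (σ ^ m) = mr ρ σ ^ m := by simp only [mr, map_pow, Units.val_pow_eq_pow_val]
  have a := trpow hy (σ := σ) (C := 1) (by rw [mul_one, one_mul]) m
  rw [one_mul, one_mul, h1, odd_cast h2 hm, one_mul] at a
  have b := trpow hy (σ := σ) (C := mr ρ (σ ^ m)) (by rw [← mm, ← mm, ← pow_succ', ← pow_succ]) m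
  rw [h3, odd_cast h2 hm, one_mul] at b
  obtain ⟨n, rfl⟩ := hm
  obtain ⟨u, w, hw⟩ := pw h2 (mr ρ σ) hd n
  rw [e, hw, add_mul, smul_mul_assoc, smul_mul_assoc, one_mul, Matrix.trace_add, Matrix.trace_smul,
    Matrix.trace_smul, ← a, smul_zero, zero_add, smul_eq_mul] at b
  refine ⟨a.symm, ?_⟩
  rw [Matrix.trace_mul_comm]
  exact ((hu w).mul_right_eq_zero).1 b.symm

theorem rd_one {t : R} {ρ : GQ →* GL (Fin 2) R} {N : ℕ} {g h : GQ} :
    rd (tI t N) ρ (g⁻¹ * h) = 1 ↔ Dv (t ^ N) (mr ρ g - mr ρ h) := by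
  rw [map_mul, map_inv, inv_mul_eq_one, ← dv_iff', Units.ext_iff]
  rfl

theorem Sc.of_dv {x : R} {Y Z : M2 R} (h : Sc x Y) (e : Dv x (Y - Z)) : Sc x Z := by
  obtain ⟨X, hX⟩ := e
  have k : ∀ i j, Z i j = Y i j - x * X i j := fun i j => by
    have := congrFun (congrFun hX i) j
    simp only [Matrix.sub_apply, Matrix.smul_apply, smul_eq_mul] at this
    linear_combination -this
  refine ⟨?_, ?_, ?_⟩
  · rw [k]; exact dvd_sub h.1 (Dvd.intro _ rfl)
  · rw [k]; exact dvd_sub h.2.1 (Dvd.intro _ rfl)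
  · rw [k, k, sub_sub_sub_comm, ← mul_sub]; exact dvd_sub h.2.2 (Dvd.intro _ rfl)

theorem Sc.of_lin {x u v : R} {Y : M2 R} (hv : IsUnit v) (h : Sc x (u • (1 : M2 R) + v • Y)) :
    Sc x Y := by
  obtain ⟨a, b, c⟩ := h
  simp only [Matrix.add_apply, Matrix.smul_apply, smul_eq_mul, Matrix.one_apply_eq, ne_eq,
    zero_ne_one, one_ne_zero, not_false_eq_true, Matrix.one_apply_ne, mul_zero, zero_add,
    add_sub_add_left_eq_sub, ← mul_sub] at a b c
  exact ⟨hv.dvd_mul_left.1 a, hv.dvd_mul_left.1 b, hv.dvd_mul_left.1 c⟩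

end

section
variable {A : Type} [CommRing A] [IsDomain A] [IsDiscreteValuationRing A] {t : A}

theorem dvd_pow_of (ht : Irreducible t) {e : ℕ} {a : A} (h : ¬ t ^ (e + 1) ∣ a) : a ∣ t ^ e := by
  have ha : a ≠ 0 := fun k => h (k ▸ dvd_zero _)
  obtain ⟨k, u, rfl⟩ := IsDiscreteValuationRing.eq_unit_mul_pow_irreducible ha ht
  rw [Units.mul_left_dvd]
  refine pow_dvd_pow t ?_
  by_contra c
  exact h (Dvd.dvd.mul_left (pow_dvd_pow t (by omega)) _)

theorem ns_of (ht : Irreducible t) {e : ℕ} {Y : M2 A} (h : ¬ Sc (t ^ (e + 1)) Y) :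
    Ns (t ^ e) Y := by
  by_contra c
  simp only [Ns, not_or] at c
  exact h ⟨by_contra fun k => c.1 (dvd_pow_of ht k), by_contra fun k => c.2.1 (dvd_pow_of ht k),
    by_contra fun k => c.2.2 (dvd_pow_of ht k)⟩

theorem ann_le (ht : t ≠ 0) (hf : Finite (A ⧸ tI t 1)) (N e : ℕ) :
    Nat.card {z : A ⧸ tI t N // Ideal.Quotient.mk (tI t N) (t ^ e) * z = 0} ≤
      Nat.card (A ⧸ tI t e) := by
  haveI := fin_tI hf e
  refine (card_le_range {z : A ⧸ tI t N | Ideal.Quotient.mk (tI t N) (t ^ e) * z = 0}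
    (fun w : A ⧸ tI t e => Ideal.Quotient.mk (tI t N) (t ^ (N - e) * w.out)) ?_).2
  intro z hz
  obtain ⟨a, rfl⟩ := Ideal.Quotient.mk_surjective z
  have h1 : t ^ N ∣ t ^ e * a :=
    Ideal.mem_span_singleton.1 (Ideal.Quotient.eq_zero_iff_mem.1 ((map_mul _ _ _).trans hz))
  obtain ⟨b, rfl⟩ : t ^ (N - e) ∣ a := by
    by_cases c : e ≤ N
    · rw [← Nat.add_sub_cancel' c, pow_add] at h1
      exact (mul_dvd_mul_iff_left (pow_ne_zero e ht)).1 h1
    · rw [Nat.sub_eq_zero_of_le (by omega), pow_zero]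
      exact one_dvd _
  refine ⟨Ideal.Quotient.mk _ b, Ideal.Quotient.eq.2 (Ideal.mem_span_singleton.2 ?_)⟩
  have h2 : t ^ e ∣ (Ideal.Quotient.mk (tI t e) b).out - b :=
    Ideal.mem_span_singleton.1 (Ideal.Quotient.eq.1 (Ideal.Quotient.mk_out _))
  rw [← mul_sub]
  exact (pow_dvd_pow t (by omega : N ≤ N - e + e)).trans
    (by rw [pow_add]; exact mul_dvd_mul_left _ h2)

theorem unit_of {a : A} (h : ¬ IsUnit a) (w : A) : IsUnit (1 + a * w) := by
  have m1 : -(a * w) ∈ nonunits A :=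
    (IsLocalRing.maximalIdeal A).neg_mem (Ideal.mul_mem_right _ _ h)
  simpa using IsLocalRing.isUnit_one_sub_self_of_mem_nonunits _ m1

end

/-- **the tangent space bound** -/
theorem selS (hR : RECS) (hK : KIL0) : SELS := by
  intro A _ _ _ _ t ρ T D ht hf hN hL
  classical
  obtain ⟨T₀, D₀, a1, a2, a3, a4⟩ := hL
  obtain ⟨T₁, D₁, C3, b1, b2, b3, b4⟩ := Sh.sha0 A t ρ T₀ D₀ ht hf (hN.mono a1 a3)
  obtain ⟨C2, c2⟩ := a4 T₁ D₁ b1 b2 b3
  have hN1 := hN.mono (a1.trans b1) b3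
  obtain ⟨C1, r, e, c1⟩ := hK A t ρ T₁ D₁ ht hf hN1
  refine ⟨T₁, C1 * C2 * C3 * Nat.card (A ⧸ tI t e) ^ (4 * r) + 1, r, e, a1.trans b1, fun N => ?_⟩
  haveI := fin_tI hf N
  obtain ⟨s, hs, c1⟩ := c1 N
  set ρN := rd (tI t N) ρ with hρN
  have h2 : (2 : A ⧸ tI t N) = 0 := two_q _
  have lv := hN1.lv N
  have fin := finrC _ ρN T₁ h2 lv.opn
  haveI := fin.to_subtype
  choose V hV hV0 using fun y : H1R ρN T₁ => y.2.2.1
  have ho : IsOpen (((rd (tI t (N + e + 1)) ρ).ker ⊓ ⨅ y, V y : Subgroup GQ) : Set GQ) := by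
    rw [Subgroup.coe_inf, Subgroup.coe_iInf]
    exact (hN1.lv _).opn.inter (isOpen_iInter_of_finite hV)
  have hle := Subgroup.normalCore_le ((rd (tI t (N + e + 1)) ρ).ker ⊓ ⨅ y, V y)
  refine ⟨s, ((rd (tI t (N + e + 1)) ρ).ker ⊓ ⨅ y, V y).normalCore,
    Vale.Agent.P022D.Sel.opn_core _ ho, inferInstance, fun g hg => (hle hg).1, hs,
    fun q hq hx => ?_⟩
  rcases Nat.eq_zero_or_pos N with rfl | Npos
  · haveI : Subsingleton (A ⧸ tI t 0) := Ideal.Quotient.subsingleton_iff.2 (by simp [tI])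
    refine ⟨Set.toFinite _, ?_⟩
    refine (Finite.card_le_one_iff_subsingleton.2 inferInstance).trans ?_
    exact Nat.succ_le_of_lt (mul_pos (Nat.succ_pos _) (pow_pos Nat.card_pos _))
  have hqp : ∀ i, (q i).Prime := fun i => (hx i).1
  have hqA : ∀ i, q i ∉ T₁ := fun i => (hx i).2.1
  have hq2 : ∀ i, q i ≠ 2 := fun i e => hqA i (e ▸ lv.h2)
  choose φ m hφ hm hφU using fun i => (hx i).2.2
  choose P hP hqP hfr using hφ
  have ov : ∀ i, Ov (q i) (P i) := fun i => ⟨hqp i, hP i, hqP i⟩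
  choose τ hτ using fun i => Vale.Agent.P022E.GW.Tg.ex_gn (ov i) (hq2 i)
  have ed : ∀ i, Dv (t ^ (N + e + 1)) (mr ρ (φ i) - mr ρ (s i ^ m i)) := fun i =>
    rd_one.1 (hle (hφU i)).1
  have em : ∀ i, mr ρN (φ i) = mr ρN (s i ^ m i) := fun i =>
    (dv_iff' _ _ _).2 ((ed i).of_dvd (pow_dvd_pow t (by omega)))
  have ey : ∀ y ∈ H1R ρN T₁, ∀ i, y (φ i) = y (s i ^ m i) := fun y hy i => by
    have h1 := hy.1 (φ i) ((φ i)⁻¹ * s i ^ m i)
    have h0 : y ((φ i)⁻¹ * s i ^ m i) = 0 :=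
      hV0 ⟨y, hy⟩ _ (Subgroup.mem_iInf.1 (hle (hφU i)).2 _)
    rw [mul_inv_cancel_left, h0, mul_zero, zero_mul, add_zero] at h1
    exact h1.symm
  have hu : ∀ i, Ns (Ideal.Quotient.mk (tI t N) (t ^ e)) (mr ρN (φ i)) := fun i => by
    have k : ¬ Sc (t ^ (e + 1)) (mr ρ (φ i)) := fun c => by
      have c1 := c.of_dv ((ed i).of_dvd (pow_dvd_pow t (by omega)))
      obtain ⟨n, hn⟩ := hm i
      obtain ⟨u, w, hw⟩ := pw CharTwo.two_eq_zero (mr ρ (s i)) (hN.det _) n
      have e1 : mr ρ (s i ^ m i) = mr ρ (s i) ^ (2 * n + 1) := by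
        simp only [mr, hn, map_pow, Units.val_pow_eq_pow_val]
      rw [e1, hw] at c1
      exact (hs i).2 (c1.of_lin (unit_of (hN.nu _) w))
    refine (ns_of ht k).imp (map_dvd _) (Or.imp (map_dvd _) fun c => ?_)
    have := map_dvd (Ideal.Quotient.mk (tI t N)) c
    rwa [map_sub] at this
  set Q := Finset.univ.image q with hQ
  have tau := fun z (hz : z ∈ TanS ρN T₁ Q D₁) i => H9.taur _ ρN (q i) (P i) (φ i) (τ i) z.1 h2
    (ov i) (hq2 i) (hfr i) (hτ i) (lv.unr _ (hqA i) _ (ov i)) hz.coc hz.opn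
  let f : TanM ρN T₁ Q D₁ →ₗ[A ⧸ tI t N] (Fin (r) → M2 (A ⧸ tI t N)) :=
    { toFun := fun z i => z.1.1 (τ i)
      map_add' := fun _ _ => rfl
      map_smul' := fun _ _ => rfl }
  let g : H1M ρN T₁ →ₗ[A ⧸ tI t N] (Fin (r) → M2 (A ⧸ tI t N)) :=
    { toFun := fun y i => y.1 (φ i)
      map_add' := fun _ _ => rfl
      map_smul' := fun _ _ => rfl }
  have finT : ∀ Q', (TanS ρN T₁ Q' D₁).Finite := fun Q' =>
    (tan_le _ (finrC _ ρN (T₁ ∪ Q') h2 lv.opn) fun c a h => ⟨h.coc, h.opn, fun l hl =>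
      h.unr l (fun k => hl (Finset.mem_union_left _ k))
        (fun k => hl (Finset.mem_union_right _ k))⟩).1
  haveI : Finite (TanM ρN T₁ Q D₁) := (finT Q).to_subtype
  have d := dual0 h2 (Vale.Agent.P022G.Sel.H44.soc_quot ht Npos) _
    (fun i => mr ρN (φ i)) hu f g
    (fun z i => by
      change z.1.1 (τ i) * _ = _ * z.1.1 (τ i)
      conv_lhs => rw [← (tau z.1 z.2 i).1]
      rw [mul_assoc, mi, mul_one])
    (fun z y => by
      have h3 := hR _ ρN T₁ Q D₁ (Function.extend q P fun _ => ⊤) (Function.extend q τ 1)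
        (Function.extend q φ 1) z.1.1 y.1 z.1.2 h2 lv (fun l hl => by
          obtain ⟨i, -, rfl⟩ := Finset.mem_image.1 hl
          rw [hq.extend_apply, hq.extend_apply, hq.extend_apply]
          exact ⟨hqA i, ov i, hτ i, hfr i⟩) z.2 y.2
      have h4 := (Finset.sum_image (s := Finset.univ) (g := q) fun _ _ _ _ h => hq h).symm.trans h3
      simp only [hq.extend_apply] at h4
      exact h4)
  have k1 : Nat.card {x : TanM ρN T₁ Q D₁ // f x = 0} ≤ Nat.card (TanS ρN T₁ ∅ D₁) := by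
    haveI := (finT ∅).to_subtype
    refine Nat.card_le_card_of_injective (fun x => ⟨x.1.1, x.1.2.coc, x.1.2.opn,
      fun l h1 _ P' hP' g' hg' => ?_, x.1.2.loc, x.1.2.zero⟩)
      fun a b e => Subtype.ext (Subtype.ext (Subtype.mk.inj e))
    by_cases hlQ : l ∈ Q
    · obtain ⟨i, -, rfl⟩ := Finset.mem_image.1 hlQ
      exact (tau x.1.1 x.1.2 i).2 (congrFun x.2 i) P' hP' g' hg'
    · exact x.1.2.unr l h1 hlQ P' hP' g' hg'
  have k2 : Nat.card {y : H1M ρN T₁ // ∀ i, (g y i).trace = 0 ∧ (mr ρN (φ i) * g y i).trace = 0} ≤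
      C1 * Nat.card (A ⧸ tI t N) ^ 5 := by
    refine le_trans ?_ c1
    haveI : Finite {y : GQ → M2 (A ⧸ tI t N) // y ∈ H1R ρN T₁ ∧
      ∀ i, (y (s i)).trace = 0 ∧ (y (s i) * mr ρN (s i)).trace = 0} :=
      (fin.subset fun y hy => hy.1 : Set.Finite {y | y ∈ H1R ρN T₁ ∧
        ∀ i, (y (s i)).trace = 0 ∧ (y (s i) * mr ρN (s i)).trace = 0}).to_subtype
    refine Nat.card_le_card_of_injective (fun y => ⟨y.1.1, y.1.2, fun i => ?_⟩)
      fun a b e => Subtype.ext (Subtype.ext (Subtype.mk.inj e))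
    have h5 := y.2 i
    change (y.1.1 (φ i)).trace = 0 ∧ (mr ρN (φ i) * y.1.1 (φ i)).trace = 0 at h5
    rw [ey _ y.1.2, em] at h5
    refine of_pow0 h2 y.1.2.1 (by
      rw [hρN, mr_rd, ← RingHom.mapMatrix_apply, ← RingHom.map_det, hN.det, map_one])
      (hm i) (fun w => ?_) h5.1 h5.2
    obtain ⟨w, rfl⟩ := Ideal.Quotient.mk_surjective w
    have := (unit_of (hN.nu (s i)) w).map (Ideal.Quotient.mk (tI t N))
    rwa [map_add, map_one, map_mul, ← tr_map] at this
  have pos : 0 < Nat.card (H1R ρN T₁) := by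
    haveI : Nonempty (H1R ρN T₁) := ⟨⟨0, (H1M ρN T₁).zero_mem⟩⟩
    exact Nat.card_pos
  have main : Nat.card (TanS ρN T₁ Q D₁) ≤
      C1 * C2 * C3 * Nat.card (A ⧸ tI t e) ^ (4 * r) * Nat.card (A ⧸ tI t N) ^ (2 * r + 5) := by
    refine Nat.le_of_mul_le_mul_right ?_ pos
    rw [Fintype.card_fin] at d
    refine le_trans d ?_
    calc _ ≤ Nat.card (A ⧸ tI t N) ^ (2 * r) *
          (C3 * (C2 * Nat.card (H1R ρN T₁)) * Nat.card (A ⧸ tI t e) ^ (4 * r) *
            (C1 * Nat.card (A ⧸ tI t N) ^ 5)) :=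
          Nat.mul_le_mul_left _ (Nat.mul_le_mul (Nat.mul_le_mul
            (k1.trans ((b4 N).trans (Nat.mul_le_mul_left _ (c2 N))))
            (Nat.pow_le_pow_left (ann_le ht.ne_zero hf N e) _)) k2)
      _ = _ := by ring
  obtain ⟨e1, e2⟩ := H9.enlr _ ρN T T₁ Q D D₁ lv.opn (a1.trans b1) (fun l hl hl' =>
    ⟨((b3 l hl).resolve_left fun h => hl' (h.1 ▸ (hN.lv 0).h0)).1, fun hlQ => by
      obtain ⟨i, -, rfl⟩ := Finset.mem_image.1 hlQ
      exact hqA i hl, b3 l hl⟩) (fun l hl => (b2 l (a1 hl)).trans (a2 l hl)) (finT Q)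
  exact ⟨e1, (e2.trans main).trans (Nat.mul_le_mul_right _ (Nat.le_succ _))⟩

end P022S.Sel
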