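import Vale.Agent.P022S.Sel.KillU
import Vale.Agent.P022S.Sel.Asm
import Vale.Agent.P022S.Sel.Recs2

/-!
# P022S, block Sel: the closed statements
-/

set_option linter.all false

noncomputable section

namespace P022S.Sel

open Vale.Agent.P022D.Sel (M2)
open P022G.Sel P022G.Sel.Bas

theorem sc_dv {R : Type} [CommRing R] {x : R} {Y : M2 R} (h : Sc x Y) :
    ∃ a : R, Dv x (Y - a • 1) := by
  obtain ⟨⟨a, ha⟩, ⟨b, hb⟩, ⟨c, hc⟩⟩ := h
  refine ⟨Y 1 1, !![c, a; b, 0], ?_⟩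
  ext i j
  fin_cases i <;> fin_cases j <;> simp [ha, hb, hc]

theorem kil0 : KIL0 := by
  intro A _ _ _ _ t ρ T D ht hf hN
  obtain ⟨e, C, r, σ, U, -, -, -, h1, h2⟩ := KU.killU ht hf hN.lv hN.det hN.irr hN.nu
  refine ⟨C, r, e, fun N => ⟨σ, fun i => ⟨(h1 i).1, fun k => (h1 i).2 (sc_dv k)⟩, ?_⟩⟩
  have := (h2 σ (fun _ => 1) fun i => ⟨odd_one, by simp⟩).2 N
  simp only [Matrix.trace_mul_comm (mr (rd (tI t N) ρ) _)] at this
  exact this

/-- **the tangent space bound at a curve** -/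
theorem selsC : SELS := selS recS2 kil0

end P022S.Sel
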