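import Vale.Agent.P022G.Sel.Bas
import Vale.Agent.P022G.Sel.Dual

/-!
# P022S, block Sel: the duality count at matrices which are only non scalar
-/

set_option linter.all false

noncomputable section

namespace P022S.Sel.H16

open Vale.Agent.P022G.Sel.H44
open Vale.Agent.P022D.Sel (M2)
open P022G.Sel P022G.Sel.Bas

/-- one of the three entries which measure the distance from the scalars divides `w` -/
def Nz {R : Type} [CommRing R] (w : R) (φ : M2 R) : Prop :=
  φ 0 1 ∣ w ∨ φ 1 0 ∣ w ∨ (φ 0 0 - φ 1 1) ∣ w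

theorem Nz.map {R S : Type} [CommRing R] [CommRing S] (k : R →+* S) {w : R} {φ : M2 R}
    (h : Nz w φ) : Nz (k w) (φ.map k) := by
  rcases h with h | h | h
  · exact Or.inl (map_dvd k h)
  · exact Or.inr (Or.inl (map_dvd k h))
  · refine Or.inr (Or.inr ?_)
    have := map_dvd k h
    rwa [map_sub] at this

/-- the centraliser up to `w` -/
theorem cent {R : Type} [CommRing R] {w : R} {φ : M2 R} (h : Nz w φ) :
    ∃ α β : M2 R →ₗ[R] R, ∀ x : M2 R, x * φ = φ * x →
      w • x = α x • (1 : M2 R) + β x • φ := by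
  let E : Fin 2 → Fin 2 → M2 R →ₗ[R] R := fun i j => Matrix.entryLinearMap R R i j
  have hE : ∀ i j x, E i j x = x i j := fun _ _ _ => rfl
  rcases h with ⟨c, rfl⟩ | ⟨c, rfl⟩ | ⟨c, rfl⟩
  · refine ⟨(c * φ 0 1) • E 1 1 - (c * φ 1 1) • E 0 1, c • E 0 1, fun x h => ?_⟩
    have h00 := congrFun (congrFun h 0) 0
    have h01 := congrFun (congrFun h 0) 1
    simp only [Matrix.mul_apply, Fin.sum_univ_two] at h00 h01
    ext i j
    fin_cases i <;> fin_cases j <;>
      simp only [Matrix.add_apply, Matrix.smul_apply, smul_eq_mul, Matrix.one_apply, Fin.zero_eta,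
        Fin.mk_one, Fin.isValue, if_true, zero_ne_one, one_ne_zero, if_false, mul_one, mul_zero,
        zero_add, LinearMap.sub_apply, LinearMap.smul_apply, hE]
    · linear_combination c * h01
    · ring
    · linear_combination (-c) * h00
    · ring
  · refine ⟨(c * φ 1 0) • E 1 1 - (c * φ 1 1) • E 1 0, c • E 1 0, fun x h => ?_⟩
    have h00 := congrFun (congrFun h 0) 0
    have h10 := congrFun (congrFun h 1) 0
    simp only [Matrix.mul_apply, Fin.sum_univ_two] at h00 h10
    ext i j
    fin_cases i <;> fin_cases j <;>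
      simp only [Matrix.add_apply, Matrix.smul_apply, smul_eq_mul, Matrix.one_apply, Fin.zero_eta,
        Fin.mk_one, Fin.isValue, if_true, zero_ne_one, one_ne_zero, if_false, mul_one, mul_zero,
        zero_add, LinearMap.sub_apply, LinearMap.smul_apply, hE]
    · linear_combination (-c) * h10
    · linear_combination c * h00
    · ring
    · ring
  · refine ⟨(c * (φ 0 0 - φ 1 1)) • E 1 1 - (c * φ 1 1) • (E 0 0 - E 1 1), c • (E 0 0 - E 1 1),
      fun x h => ?_⟩
    have h01 := congrFun (congrFun h 0) 1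
    have h10 := congrFun (congrFun h 1) 0
    simp only [Matrix.mul_apply, Fin.sum_univ_two] at h01 h10
    ext i j
    fin_cases i <;> fin_cases j <;>
      simp only [Matrix.add_apply, Matrix.smul_apply, smul_eq_mul, Matrix.one_apply, Fin.zero_eta,
        Fin.mk_one, Fin.isValue, if_true, zero_ne_one, one_ne_zero, if_false, mul_one, mul_zero,
        zero_add, LinearMap.sub_apply, LinearMap.smul_apply, hE]
    · ring
    · linear_combination (-c) * h01
    · linear_combination c * h10
    · ring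

/-- the count of the elements whose image is killed by `w` -/
theorem card_tor {R : Type} [CommRing R] [Finite R] {ι : Type*} [Fintype ι] {M : Type*}
    [AddCommGroup M] [Module R M] [Finite M] (w : R) (f : M →ₗ[R] (ι → M2 R)) :
    Nat.card {x : M // w • f x = 0} ≤
      Nat.card {r : R // w * r = 0} ^ (4 * Fintype.card ι) * Nat.card {x : M // f x = 0} := by
  classical
  let K : Submodule R M := LinearMap.ker (w • f)
  have e := card_ker_range (f.domRestrict K)
  have e0 : Nat.card {x : M // w • f x = 0} = Nat.card K := rfl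
  rw [e0, e]
  refine Nat.mul_le_mul ?_ ?_
  · have : Nat.card {r : R // w * r = 0} ^ (4 * Fintype.card ι) =
        Nat.card (ι × Fin 2 × Fin 2 → {r : R // w * r = 0}) := by
      rw [Nat.card_fun, Nat.card_eq_fintype_card (α := ι × Fin 2 × Fin 2)]
      simp only [Fintype.card_prod, Fintype.card_fin]
      rw [mul_comm]
    rw [this]
    refine Nat.card_le_card_of_injective (fun v p => ⟨v.1 p.1 p.2.1 p.2.2, ?_⟩) fun a b h => ?_
    · obtain ⟨x, hx⟩ := v.2
      have h1 : w • f x.1 = 0 := x.2
      rw [← hx]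
      exact congrFun (congrFun (congrFun h1 p.1) p.2.1) p.2.2
    · refine Subtype.ext (funext fun i => ?_)
      ext j k
      exact congrArg Subtype.val (congrFun h (i, j, k))
  · exact Nat.card_le_card_of_injective (fun x => ⟨x.1.1, x.2⟩)
      fun a b h => Subtype.ext (Subtype.ext (Subtype.mk.inj h))

/-- the matrix form of the duality count without a unit trace -/
theorem dualW {R : Type} [CommRing R] [Finite R] (h2 : (2 : R) = 0) (hs : Soc R)
    {ι : Type*} [Fintype ι] {M N : Type*} [AddCommGroup M] [Module R M] [Finite M]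
    [AddCommGroup N] [Module R N] (w : R) (φ : ι → M2 R) (hφ : ∀ i, Nz w (φ i))
    (f : M →ₗ[R] (ι → M2 R)) (g : N →ₗ[R] (ι → M2 R))
    (hf : ∀ x i, f x i * φ i = φ i * f x i) (h : ∀ x y, w * ∑ i, (f x i * g y i).trace = 0) :
    Nat.card M * Nat.card N ≤ Nat.card R ^ (2 * Fintype.card ι) *
      (Nat.card {r : R // w * r = 0} ^ (4 * Fintype.card ι) * Nat.card {x : M // f x = 0} *
        Nat.card {y : N // ∀ i, (g y i).trace = 0 ∧ (φ i * g y i).trace = 0}) := by
  choose α β hc using fun i => cent (hφ i)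
  let f' : M →ₗ[R] (ι ⊕ ι → R) :=
    { toFun := fun x => Sum.elim (fun i => α i (f x i)) (fun i => β i (f x i))
      map_add' := fun a b => by
        funext k
        rcases k with i | i <;>
          simp only [map_add, Pi.add_apply, Sum.elim_inl, Sum.elim_inr]
      map_smul' := fun a b => by
        funext k
        rcases k with i | i <;>
          simp only [map_smul, Pi.smul_apply, Sum.elim_inl, Sum.elim_inr, RingHom.id_apply] }
  let g' : N →ₗ[R] (ι ⊕ ι → R) :=
    { toFun := fun y => Sum.elim (fun i => (g y i).trace) (fun i => (φ i * g y i).trace)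
      map_add' := fun a b => by
        funext k
        rcases k with i | i <;>
          simp only [map_add, Pi.add_apply, Sum.elim_inl, Sum.elim_inr, mul_add, Matrix.trace_add]
      map_smul' := fun a b => by
        funext k
        rcases k with i | i <;>
          simp only [map_smul, Pi.smul_apply, Sum.elim_inl, Sum.elim_inr, Matrix.mul_smul,
            Matrix.trace_smul, smul_eq_mul, RingHom.id_apply] }
  have key := dual_map h2 hs f' g' (fun x y => by
    rw [Fintype.sum_sum_type, ← Finset.sum_add_distrib, ← h x y, Finset.mul_sum]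
    refine Finset.sum_congr rfl fun i _ => ?_
    show α i (f x i) * (g y i).trace + β i (f x i) * (φ i * g y i).trace = _
    rw [← smul_eq_mul w, ← Matrix.trace_smul, ← Matrix.smul_mul, hc i _ (hf x i), add_mul,
      Matrix.smul_mul, Matrix.smul_mul, one_mul, Matrix.trace_add, Matrix.trace_smul,
      Matrix.trace_smul, smul_eq_mul, smul_eq_mul])
  have e1 : Nat.card (LinearMap.ker f') ≤ Nat.card {x : M // w • f x = 0} := by
    refine Nat.card_le_card_of_injective (fun x => ⟨x.1, funext fun i => ?_⟩)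
      fun a b h => Subtype.ext (Subtype.mk.inj h)
    have a1 : α i (f x.1 i) = 0 := congrFun x.2 (Sum.inl i)
    have a2 : β i (f x.1 i) = 0 := congrFun x.2 (Sum.inr i)
    rw [Pi.smul_apply, hc i _ (hf x.1 i), a1, a2, zero_smul, zero_smul, add_zero]
    rfl
  have e2 : Nat.card (LinearMap.ker g') =
      Nat.card {y : N // ∀ i, (g y i).trace = 0 ∧ (φ i * g y i).trace = 0} := by
    refine Nat.card_congr (Equiv.subtypeEquivRight fun y => ?_)
    rw [LinearMap.mem_ker]
    constructor
    · intro hy i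
      exact ⟨congrFun hy (Sum.inl i), congrFun hy (Sum.inr i)⟩
    · intro hy
      funext k
      rcases k with i | i
      · exact (hy i).1
      · exact (hy i).2
  rw [e2, Fintype.card_sum, ← two_mul] at key
  exact key.trans (Nat.mul_le_mul_left _ (Nat.mul_le_mul_right _ (e1.trans (card_tor w f))))

section dvr
variable {A : Type} [CommRing A] [IsDomain A] [IsDiscreteValuationRing A] {t : A}

/-- non scalar modulo `t ^ (e + 1)` gives `Nz (t ^ e)` -/
theorem nz_of (ht : Irreducible t) {e : ℕ} {φ : M2 A}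
    (h : ¬ ∃ a : A, Dv (t ^ (e + 1)) (φ - a • (1 : M2 A))) : Nz (t ^ e) φ := by
  have k : ∀ x : A, ¬ x ∣ t ^ e → t ^ (e + 1) ∣ x := by
    intro x hx
    by_cases h0 : x = 0
    · rw [h0]; exact dvd_zero _
    obtain ⟨n, u, rfl⟩ := IsDiscreteValuationRing.eq_unit_mul_pow_irreducible h0 ht
    rw [Units.mul_left_dvd] at hx
    refine Dvd.dvd.mul_left (pow_dvd_pow t ?_) _
    by_contra hn
    exact hx (pow_dvd_pow t (by omega))
  by_contra hc
  simp only [Nz, not_or] at hc
  obtain ⟨a, ha⟩ := k _ hc.1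
  obtain ⟨b, hb⟩ := k _ hc.2.1
  obtain ⟨c, hc⟩ := k _ hc.2.2
  refine h ⟨φ 1 1, !![c, a; b, 0], ?_⟩
  ext i j
  fin_cases i <;> fin_cases j <;> simp [ha, hb, hc]

/-- the annihilator of `t ^ e` in `A / t ^ N` -/
theorem ann_le (hf : Finite (A ⧸ tI t 1)) (e N : ℕ) :
    Nat.card {r : A ⧸ tI t N // Ideal.Quotient.mk (tI t N) (t ^ e) * r = 0} ≤
      Nat.card (A ⧸ tI t e) := by
  haveI := fin_tI hf N
  haveI := fin_tI hf e
  let μ : (A ⧸ tI t N) →ₗ[A] (A ⧸ tI t N) := LinearMap.lsmul A _ (t ^ e)
  have e1 := card_ker_range μ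
  have e2 := Submodule.card_eq_card_quotient_mul_card (LinearMap.range μ)
  have e3 : Nat.card (LinearMap.ker μ) = Nat.card ((A ⧸ tI t N) ⧸ LinearMap.range μ) := by
    have p : 0 < Nat.card (LinearMap.range μ) := Nat.card_pos
    refine Nat.eq_of_mul_eq_mul_left p ?_
    rw [← e1, ← e2]
  have e4 : Nat.card {r : A ⧸ tI t N // Ideal.Quotient.mk (tI t N) (t ^ e) * r = 0} =
      Nat.card (LinearMap.ker μ) := Nat.card_congr (Equiv.subtypeEquivRight fun r => by
    rw [LinearMap.mem_ker, LinearMap.lsmul_apply, Algebra.smul_def]; rfl)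
  rw [e4, e3]
  let ψ : (A ⧸ tI t e) →ₗ[A] ((A ⧸ tI t N) ⧸ LinearMap.range μ) :=
    Submodule.liftQ (tI t e) ((LinearMap.range μ).mkQ ∘ₗ (tI t N).mkQ) (fun x hx => by
      obtain ⟨c, rfl⟩ := Ideal.mem_span_singleton.1 hx
      rw [LinearMap.mem_ker, LinearMap.comp_apply, Submodule.mkQ_apply,
        Submodule.Quotient.mk_eq_zero]
      exact ⟨(tI t N).mkQ c, by rw [LinearMap.lsmul_apply, ← map_smul, smul_eq_mul]⟩)
  refine Nat.card_le_card_of_surjective ψ fun z => ?_
  obtain ⟨y, rfl⟩ := (LinearMap.range μ).mkQ_surjective z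
  obtain ⟨x, rfl⟩ := (tI t N).mkQ_surjective y
  exact ⟨(tI t e).mkQ x, rfl⟩

/-- **the duality count** in `A / t ^ N` at matrices which are non scalar modulo `t ^ (e + 1)` -/
theorem dual0 [CharP A 2] (ht : Irreducible t) (hf : Finite (A ⧸ tI t 1)) (e : ℕ) {N : ℕ}
    (hN : 0 < N) {ι : Type*} [Fintype ι] {M L : Type*} [AddCommGroup M] [Module (A ⧸ tI t N) M]
    [Finite M] [AddCommGroup L] [Module (A ⧸ tI t N) L] (φ : ι → M2 A)
    (hφ : ∀ i, ¬ ∃ a : A, Dv (t ^ (e + 1)) (φ i - a • (1 : M2 A)))
    (f : M →ₗ[A ⧸ tI t N] (ι → M2 (A ⧸ tI t N))) (g : L →ₗ[A ⧸ tI t N] (ι → M2 (A ⧸ tI t N)))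
    (hc : ∀ x i, f x i * (φ i).map (Ideal.Quotient.mk (tI t N)) =
      (φ i).map (Ideal.Quotient.mk (tI t N)) * f x i)
    (h : ∀ x y, ∑ i, (f x i * g y i).trace = 0) :
    Nat.card M * Nat.card L ≤ Nat.card (A ⧸ tI t N) ^ (2 * Fintype.card ι) *
      (Nat.card (A ⧸ tI t e) ^ (4 * Fintype.card ι) * Nat.card {x : M // f x = 0} *
        Nat.card {y : L // ∀ i, (g y i).trace = 0 ∧
          ((φ i).map (Ideal.Quotient.mk (tI t N)) * g y i).trace = 0}) := by
  haveI := fin_tI hf N
  refine (dualW (two_q _) (soc_quot ht hN) (Ideal.Quotient.mk (tI t N) (t ^ e)) _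
    (fun i => (nz_of ht (hφ i)).map _) f g hc (fun x y => by rw [h, mul_zero])).trans ?_
  exact Nat.mul_le_mul_left _ (Nat.mul_le_mul_right _ (Nat.mul_le_mul_right _
    (Nat.pow_le_pow_left (ann_le hf e N) _)))

end dvr

end P022S.Sel.H16
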