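import Vale.Agent.P022S.Sel.Asm
import Vale.Agent.P022S.Sel.Recs2

/-!
# P022S, block Sel: finitely many non scalar elements kill the dual classes
-/

set_option linter.all false

noncomputable section

namespace P022S.Sel.H89

open NumberField
open Vale.Agent.P022
open Vale.Agent.P022D.Sel (M2 Ginf)
open Vale.Agent.P022G
open P022G.Sel P022G.Sel.Bas P022G.Sel.KillH9
open P022G.Sel.Sh (tr_map)
open Vale.Agent.P022G.Sel.H44 (card_ker_range)

section alg
variable {R M : Type} [CommRing R] [AddCommGroup M] [Module R M] [Finite M]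

theorem ker_coker (f : M →ₗ[R] M) :
    Nat.card (LinearMap.ker f) = Nat.card (M ⧸ LinearMap.range f) := by
  have h1 := card_ker_range f
  rw [Submodule.card_eq_card_quotient_mul_card (LinearMap.range f)] at h1
  exact (Nat.eq_of_mul_eq_mul_left Nat.card_pos h1).symm

theorem soc_le (x : R) (K : Submodule R M) :
    Nat.card (LinearMap.ker (LinearMap.lsmul R (M ⧸ K) x)) ≤
      Nat.card (LinearMap.ker (LinearMap.lsmul R M x)) := by
  haveI : Finite (M ⧸ K) := Finite.of_surjective _ K.mkQ_surjective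
  haveI : Finite (M ⧸ LinearMap.range (LinearMap.lsmul R M x)) :=
    Finite.of_surjective _ (Submodule.mkQ_surjective _)
  rw [ker_coker, ker_coker]
  refine Nat.card_le_card_of_surjective (Submodule.mapQ _ _ K.mkQ ?_) fun z => ?_
  · rintro _ ⟨m, rfl⟩
    exact ⟨K.mkQ m, (map_smul K.mkQ x m).symm⟩
  · obtain ⟨z, rfl⟩ := Submodule.mkQ_surjective _ z
    obtain ⟨z, rfl⟩ := K.mkQ_surjective z
    exact ⟨Submodule.mkQ _ z, rfl⟩

/-- a bounded number of members of a family of submodules has the same intersection -/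
theorem soc {I : Type} (i0 : I) (K : I → Submodule R M) {x : R} {N r : ℕ} (hx : x ^ N = 0)
    (hr : Nat.card (LinearMap.ker (LinearMap.lsmul R M x)) ≤ r) :
    ∃ σ : Fin r → I, ∀ m, (∀ j, m ∈ K (σ j)) → ∀ i, m ∈ K i := by
  classical
  let K0 : Submodule R M := ⨅ i, K i
  haveI : Finite (M ⧸ K0) := Finite.of_surjective _ K0.mkQ_surjective
  let B := LinearMap.ker (LinearMap.lsmul R (M ⧸ K0) x)
  have hc : ∀ b : B, ∃ i, ∀ m, K0.mkQ m = b.1 → m ∉ K0 → m ∉ K i := fun b => by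
    obtain ⟨m, hm⟩ := K0.mkQ_surjective b.1
    by_cases h : m ∈ K0
    · refine ⟨i0, fun m' e h' => absurd ?_ h'⟩
      have : m' - m ∈ K0 := (Submodule.Quotient.eq _).1 (e.trans hm.symm)
      simpa using K0.add_mem this h
    · obtain ⟨i, hi⟩ := not_forall.1 fun c => h ((Submodule.mem_iInf _).2 c)
      refine ⟨i, fun m' e _ h' => hi ?_⟩
      have : m - m' ∈ K0 := (Submodule.Quotient.eq _).1 (hm.trans e.symm)
      simpa using (K i).add_mem ((Submodule.mem_iInf _).1 this i) h'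
  choose c hc using hc
  haveI := Fintype.ofFinite B
  obtain ⟨e⟩ : Nonempty (B ↪ Fin r) := Function.Embedding.nonempty_of_card_le (by
    rw [Fintype.card_fin, ← Nat.card_eq_fintype_card]
    exact (soc_le x K0).trans hr)
  refine ⟨Function.extend e c fun _ => i0, fun m hm => ?_⟩
  have key : ∀ k, x ^ (k + 1) • m ∈ K0 → x ^ k • m ∈ K0 := fun k h => by
    by_contra h'
    have hb : K0.mkQ (x ^ k • m) ∈ B := by
      change x • K0.mkQ (x ^ k • m) = 0
      rw [← map_smul, smul_smul, ← pow_succ']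
      exact (Submodule.Quotient.mk_eq_zero _).2 h
    have := hm (e ⟨_, hb⟩)
    rw [e.injective.extend_apply] at this
    exact hc ⟨_, hb⟩ _ rfl h' (Submodule.smul_mem _ _ this)
  have all : ∀ k, x ^ k • m ∈ K0 → m ∈ K0 := fun k => by
    induction k with
    | zero => exact fun h => by simpa using h
    | succ k ih => exact fun h => ih (key k h)
  exact (Submodule.mem_iInf _).1 (all N (by rw [hx, zero_smul]; exact K0.zero_mem))

end alg

section ring
variable {R : Type} [CommRing R] {ρ : GQ →* GL (Fin 2) R}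

theorem tr_rec {y : GQ → M2 R} (hy : Co ρ y) {s g : GQ} (hd : (mr ρ s).det = 1)
    (h1 : (y s).trace = 0) (h2 : (y s * mr ρ s).trace = 0) :
    (mr ρ s).trace * (y (g * s) * mr ρ (g * s)).trace =
      (y g * mr ρ g).trace + (y (g * s * s) * mr ρ (g * s * s)).trace := by
  obtain ⟨e1, e2⟩ := adj2 (mr ρ s) (mr ρ s⁻¹) (y s) (mi s) hd h1 h2
  have c := coc_of hy
  have a1 := c (g * s) s
  have a2 := c g s
  simp only [mh_apply] at a1 a2
  have a3 : y g * mr ρ g = (mr ρ s).trace • (y (g * s) * mr ρ (g * s)) -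
      y (g * s * s) * mr ρ (g * s * s) := by
    have b1 : y g * mr ρ g = y (g * s) * mr ρ (g * s) * mr ρ s⁻¹ - mr ρ g * y s := by
      rw [a2, add_mul, mul_assoc (y g * mr ρ g), mi', mul_one, mul_assoc (mr ρ g),
        mul_assoc (y s), mi', mul_one, add_sub_cancel_right]
    have b2 : mr ρ (g * s) * (y s * mr ρ s) = mr ρ g * y s := by
      rw [← e2, mm, mul_assoc, ← mul_assoc (mr ρ s), mi', one_mul]
    rw [b1, a1, b2, e1, mul_sub, mul_smul_comm, mul_one]
    abel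
  rw [a3, Matrix.trace_sub, Matrix.trace_smul, smul_eq_mul, sub_add_cancel]

theorem sc_tr (h2 : (2 : R) = 0) {x : R} {Y : M2 R} (h : Sc x Y) : x ∣ Y.trace := by
  have : Y.trace = Y 0 0 - Y 1 1 := by
    rw [Matrix.trace_fin_two]
    linear_combination Y 1 1 * h2
  exact this ▸ h.2.2

theorem sc_mul {x : R} {Y Z : M2 R} (h : Sc x Y) (hd : Y.det = 1) (k : x ∣ (Y * Z).trace) :
    x ∣ Z.trace := by
  obtain ⟨⟨a, ha⟩, ⟨b, hb⟩, ⟨c, hc⟩⟩ := h
  obtain ⟨d, hd'⟩ := k
  simp only [Matrix.trace_fin_two, Matrix.mul_apply, Fin.sum_univ_two, Matrix.det_fin_two]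
    at hd hd' ⊢
  refine ⟨Y 0 0 * (d - c * Z 0 0 - a * Z 1 0 - b * Z 0 1) - a * Y 1 0 * (Z 0 0 + Z 1 1), ?_⟩
  linear_combination Y 0 0 * hd' - (Z 0 0 + Z 1 1) * hd - Y 0 0 * Z 0 0 * hc - Y 0 0 * Z 1 0 * ha -
    Y 0 0 * Z 0 1 * hb - Y 1 0 * (Z 0 0 + Z 1 1) * ha

theorem tr_inv {s : GQ} (hd : (mr ρ s).det = 1) : (mr ρ s⁻¹).trace = (mr ρ s).trace := by
  rw [(adj2 (mr ρ s) (mr ρ s⁻¹) 0 (mi s) hd (by simp) (by simp)).1, Matrix.trace_sub,
    Matrix.trace_smul, Matrix.trace_one, Fintype.card_fin, smul_eq_mul]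
  push_cast
  ring

theorem ex_tr {δ : R} (hδ : δ ≠ 0)
    (h : ∀ Z : M2 R, δ • Z ∈ Submodule.span R (mr ρ '' (Ginf : Set GQ))) :
    ∃ s ∈ Ginf, (mr ρ s).trace ≠ 0 := by
  by_contra c
  push Not at c
  have k : Submodule.span R (mr ρ '' (Ginf : Set GQ)) ≤
      LinearMap.ker (Matrix.traceLinearMap (Fin 2) R R) := Submodule.span_le.2 (by
    rintro _ ⟨g, hg, rfl⟩
    exact c g hg)
  have := k (h !![1, 0; 0, 0])
  simp [Matrix.trace_fin_two] at this
  exact hδ this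

/-- the two conditions at `σ` -/
def KK (ρ : GQ →* GL (Fin 2) R) (T : Finset ℕ) (σ : GQ) : Submodule R (H1M ρ T) where
  carrier := {y | (y.1 σ).trace = 0 ∧ (y.1 σ * mr ρ σ).trace = 0}
  add_mem' {a b} ha hb := by
    change (a.1 σ + b.1 σ).trace = 0 ∧ ((a.1 σ + b.1 σ) * mr ρ σ).trace = 0
    rw [add_mul, Matrix.trace_add, Matrix.trace_add, ha.1, ha.2, hb.1, hb.2, add_zero]
    exact ⟨rfl, rfl⟩
  zero_mem' := by
    change (0 : M2 R).trace = 0 ∧ ((0 : M2 R) * mr ρ σ).trace = 0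
    simp
  smul_mem' r a ha := by
    change (r • a.1 σ).trace = 0 ∧ ((r • a.1 σ) * mr ρ σ).trace = 0
    rw [smul_mul_assoc, Matrix.trace_smul, Matrix.trace_smul, ha.1, ha.2, smul_zero]
    exact ⟨rfl, rfl⟩

end ring

/-- **the dual classes** -/
theorem kil0 : KIL0 := by
  intro A _ _ _ _ t ρ T D ht hf hN
  have hF := finrC
  have two0 : (2 : A) = 0 := CharTwo.two_eq_zero
  obtain ⟨δ, hδ, hs⟩ := hN.irr
  obtain ⟨s, s1, s2⟩ := ex_tr hδ hs
  obtain ⟨e, u, rfl⟩ := IsDiscreteValuationRing.eq_unit_mul_pow_irreducible hδ ht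
  obtain ⟨e', u', hu'⟩ := IsDiscreteValuationRing.eq_unit_mul_pow_irreducible s2 ht
  have nd : ¬ t ^ (e' + 1) ∣ (mr ρ s).trace := by
    rw [hu', Units.dvd_mul_left, pow_dvd_pow_iff ht.ne_zero ht.not_isUnit]
    omega
  have ns : ¬ Sc (t ^ (e' + 1)) (mr ρ s) := fun c => nd (sc_tr two0 c)
  obtain ⟨C, hC⟩ := tors hF ht.ne_zero hf (fun N => (hN.lv N).opn) T (e * 5 + e')
  obtain ⟨r, hr⟩ := tors hF ht.ne_zero hf (fun N => (hN.lv N).opn) T 1
  obtain ⟨a, b, hab⟩ := two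
  refine ⟨C, r, e', fun N => ?_⟩
  have fN := fin_tI hf N
  have hfin : (H1R (rd (tI t N) ρ) T).Finite := hF _ _ _ (two_q _) (hN.lv N).opn
  have fK : ∀ k, Finite {y : GQ → M2 (A ⧸ tI t N) // y ∈ H1R (rd (tI t N) ρ) T ∧
      Ideal.Quotient.mk (tI t N) (t ^ k) • y = 0} := fun k =>
    (hfin.subset fun y (hy : _ ∧ _) => hy.1).to_subtype
  haveI : Finite (H1M (rd (tI t N) ρ) T) := hfin.to_subtype
  obtain ⟨σ, hσ⟩ := soc (I := {g : GQ // g ∈ Ginf ∧ ¬ Sc (t ^ (e' + 1)) (mr ρ g)}) ⟨s, s1, ns⟩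
    (fun g => KK (rd (tI t N) ρ) T g.1) (x := Ideal.Quotient.mk (tI t N) (t ^ 1)) (N := N) (r := r)
    (by
      rw [← map_pow, pow_one]
      exact Ideal.Quotient.eq_zero_iff_mem.2 (Ideal.mem_span_singleton_self _))
    (le_trans (by
      haveI := fK 1
      exact Nat.card_le_card_of_injective (fun y => ⟨y.1.1, y.1.2, congrArg Subtype.val y.2⟩)
        fun a b e => Subtype.ext (Subtype.ext (Subtype.mk.inj e))) (hr N))
  refine ⟨fun i => (σ i).1, fun i => (σ i).2, ?_⟩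
  have dN : ∀ g, (mr (rd (tI t N) ρ) g).det = 1 := fun g => by
    rw [mr_rd, ← RingHom.mapMatrix_apply, ← RingHom.map_det, hN.det, map_one]
  have hsh : ∀ y : {y : GQ → M2 (A ⧸ tI t N) // y ∈ H1R (rd (tI t N) ρ) T ∧
      ∀ i, (y (σ i).1).trace = 0 ∧ (y (σ i).1 * mr (rd (tI t N) ρ) (σ i).1).trace = 0}, _ :=
    fun y => shape (y := (mr (rd (tI t N) ρ) s).trace • y.1) (sp_rd hs (tI t N) le_rfl)
      ((H1M (rd (tI t N) ρ) T).smul_mem (mr (rd (tI t N) ρ) s).trace y.2.1).1 (fun g hg => by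
      have k := fun g h1 h2 => hσ ⟨y.1, y.2.1⟩ y.2.2 ⟨g, h1, h2⟩
      rw [Pi.smul_apply, smul_mul_assoc, Matrix.trace_smul, smul_eq_mul]
      by_cases h : Sc (t ^ (e' + 1)) (mr ρ g)
      · have k1 := tr_rec y.2.1.1 (g := g * s⁻¹) (dN s) (k s s1 ns).1 (k s s1 ns).2
        rw [inv_mul_cancel_right] at k1
        have n1 : ¬ Sc (t ^ (e' + 1)) (mr ρ (g * s⁻¹)) := fun c => nd (by
          have c1 := sc_tr two0 c
          rw [mm] at c1
          rw [← tr_inv (hN.det s)]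
          exact sc_mul h (hN.det g) c1)
        have n2 : ¬ Sc (t ^ (e' + 1)) (mr ρ (g * s)) := fun c => nd (by
          have c1 := sc_tr two0 c
          rw [mm] at c1
          exact sc_mul h (hN.det g) c1)
        rw [k1, (k _ (Ginf.mul_mem hg (Ginf.inv_mem s1)) n1).2,
          (k _ (Ginf.mul_mem hg s1) n2).2, add_zero]
      · rw [(k g hg h).2, mul_zero])
  choose M c h1 h2 h3 using hsh
  have hz : ∀ y, ∃ V : Subgroup GQ, IsOpen (V : Set GQ) ∧ ∀ g ∈ V, c y g = 0 := by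
    intro y
    obtain ⟨U, hU, h0⟩ := y.2.1.2.1
    refine ⟨U ⊓ (rd (tI t N) ρ).ker, hU.inter (hN.lv N).opn, fun g hg => ?_⟩
    have := h3 y g
    rw [Pi.smul_apply, h0 g hg.1, smul_zero, smul_zero, (mker hg.2).1, (mker hg.2).2, one_mul,
      mul_one, sub_self, zero_add] at this
    simpa using (congrFun (congrFun this 0) 0).symm
  haveI := fK (e * 5 + e')
  refine (fib _ (fun y => y ∈ H1R (rd (tI t N) ρ) T ∧
      Ideal.Quotient.mk (tI t N) (t ^ (e * 5 + e')) • y = 0) (B := Fin 5 → A ⧸ tI t N)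
    (fun y => ![M y 0 0 - M y 1 1, M y 0 1, M y 1 0, c y a, c y b]) ?_).trans ?_
  · intro x y hxy
    refine ⟨h1_sub x.2.1 y.2.1, ?_⟩
    have e0 := scal_eq (congrFun hxy 0) (congrFun hxy 1) (congrFun hxy 2)
    have e1 : ∀ g, c x g - c y g = 0 := by
      obtain ⟨V, hV, v⟩ := hz x
      obtain ⟨W, hW, w⟩ := hz y
      refine hab _ (fun g => c x g - c y g) (fun z => by rw [nsmul_eq_mul, Nat.cast_ofNat, two_q,
        zero_mul]) (fun g h => by rw [h1, h1]; ring)
        ⟨V ⊓ W, hV.inter hW, fun g hg => by rw [v g hg.1, w g hg.2, sub_zero]⟩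
        (fun g hg => by rw [h2 x g hg, h2 y g hg, sub_zero])
        (sub_eq_zero.2 (congrFun hxy 3)) (sub_eq_zero.2 (congrFun hxy 4))
    have e2 : ∀ g, Ideal.Quotient.mk (tI t N) (u * t ^ e) ^ 5 •
        (mr (rd (tI t N) ρ) s).trace • (x.1 g - y.1 g) = 0 := by
      intro g
      have p := h3 x g
      have q := h3 y g
      rw [Pi.smul_apply] at p q
      rw [smul_sub, smul_sub, p, q, sub_eq_zero.1 (e1 g), e0]
      simp only [mul_add, add_mul, mul_smul_comm, smul_mul_assoc, mul_one, mi']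
      abel
    funext g
    have e3 : Ideal.Quotient.mk (tI t N) (t ^ (e * 5 + e')) =
        Ideal.Quotient.mk (tI t N) ((u⁻¹ : Aˣ) ^ 5 * (u'⁻¹ : Aˣ)) *
        (Ideal.Quotient.mk (tI t N) (u * t ^ e) ^ 5 * (mr (rd (tI t N) ρ) s).trace) := by
      rw [mr_rd, tr_map, hu', ← map_pow, ← map_mul, ← map_mul, mul_mul_mul_comm, ← mul_pow,
        Units.inv_mul_cancel_left, Units.inv_mul_cancel_left, pow_add, pow_mul]
    rw [Pi.smul_apply, Pi.sub_apply, e3, mul_smul, mul_smul, e2, smul_zero, Pi.zero_apply]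
  · rw [Nat.card_fun, Nat.card_eq_fintype_card (α := Fin 5), Fintype.card_fin]
    exact Nat.mul_le_mul_right _ (hC N)

/-- **the tangent space bound** -/
theorem sels : SELS := selS recS2 kil0

end P022S.Sel.H89
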