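import Vale.Agent.P022G.Sel.All

/-!
# P022S, block Sel: finitely many non scalar elements kill the dual classes, uniformly
-/

set_option linter.all false

noncomputable section

namespace P022S.Sel.KU

open NumberField
open Vale.Agent.P022
open Vale.Agent.P027M.S (Inert)
open Vale.Agent.P022D.Sel (M2 IsDec Ginf)
open Vale.Agent.P022E.GW (Ov Op Ur)
open Vale.Agent.P022G
open P022G.Sel P022G.Sel.Bas P022G.Sel.Sh

/-- additive, locally constant, trivial on `Ginf` -/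
structure Ad {M : Type} [AddCommGroup M] (χ : GQ → M) : Prop where
  add : ∀ g h, χ (g * h) = χ g + χ h
  opn : ∃ V : Subgroup GQ, IsOpen (V : Set GQ) ∧ ∀ g ∈ V, χ g = 0
  inf : ∀ g ∈ Ginf, χ g = 0

theorem Ad.comp {M M' : Type} [AddCommGroup M] [AddCommGroup M'] {χ : GQ → M} (h : Ad χ)
    (f : M →+ M') : Ad fun g => f (χ g) :=
  ⟨fun g k => by rw [h.add, map_add], h.opn.imp fun V hV =>
    ⟨hV.1, fun g hg => by rw [hV.2 g hg, map_zero]⟩, fun g hg => by rw [h.inf g hg, map_zero]⟩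

theorem Ad.plus {M : Type} [AddCommGroup M] {χ ψ : GQ → M} (h : Ad χ) (k : Ad ψ) :
    Ad fun g => χ g + ψ g := by
  obtain ⟨V, hV, v⟩ := h.opn
  obtain ⟨W, hW, w⟩ := k.opn
  exact ⟨fun a b => by rw [h.add, k.add]; abel, ⟨V ⊓ W, hV.inter hW, fun g hg => by
    rw [v g hg.1, w g hg.2, add_zero]⟩, fun g hg => by rw [h.inf g hg, k.inf g hg, add_zero]⟩

theorem Ad.h8 {M : Type} [AddCommGroup M] {χ : GQ → M} (h : Ad χ) (h2 : ∀ x : M, 2 • x = 0)
    {i r : Qb} (hi : i ^ 2 = -1) (hr : r ^ 2 = 2) {g : GQ} (gi : g i = i) (gr : g r = r) :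
    χ g = 0 := by
  letI : Module (ZMod 2) M := AddCommGroup.zmodModule h2
  refine (Module.forall_dual_apply_eq_zero_iff (ZMod 2) _).1 fun l => ?_
  obtain ⟨V, hV, v⟩ := h.opn
  exact Vale.Agent.P022E.GW.Kl.chr (F := ZMod 2) (χ := fun g => l (χ g))
    (fun g k => by rw [h.add, map_add]) hV (fun g hg => by rw [v g hg, map_zero])
    (fun g hg => by rw [h.inf g hg, map_zero]) hi hr gi gr

theorem Ad.unr {M : Type} [AddCommGroup M] {χ : GQ → M} (h : Ad χ) (h2 : ∀ x : M, 2 • x = 0)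
    {l : ℕ} {P : Ideal (𝓞 Qb)} (hP : Ov l P) (hl : l ≠ 2) {g : GQ} (hg : Inert P g) :
    χ g = 0 := by
  obtain ⟨i, hi⟩ := IsAlgClosed.exists_pow_nat_eq (-1 : Qb) (n := 2) two_pos
  obtain ⟨r, hr⟩ := IsAlgClosed.exists_pow_nat_eq (2 : Qb) (n := 2) two_pos
  have n2 : (2 : 𝓞 Qb) ∉ P := by
    have := Vale.Agent.P027M.S.Loc.not_mem hP.2.1 hP.2.2 (c := ((2 : ℕ) : ℤ))
      (Nat.isCoprime_iff_coprime.2 ((Nat.coprime_primes hP.1 Nat.prime_two).2 hl))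
    exact_mod_cast this
  have n1 : (-1 : 𝓞 Qb) ∉ P := fun k => hP.2.1.ne_top ((Ideal.eq_top_iff_one P).2
    (by simpa using P.neg_mem k))
  have a := Vale.Agent.P022E.GW.Kc.kq_unit hP.2.1 n2 n1 hg (by simp)
  have b := Vale.Agent.P022E.GW.Kc.kq_unit hP.2.1 n2 n2 hg (map_ofNat g 2)
  exact h.h8 h2 hi hr ((Vale.Agent.P022E.GW.Kc.kq_zero (by simpa using hi) g).1 a)
    ((Vale.Agent.P022E.GW.Kc.kq_zero (by exact hr) g).1 b)

section
variable {R : Type} [CommRing R] {ρ : GQ →* GL (Fin 2) R}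

theorem two_n (h2 : (2 : R) = 0) (x : R) : 2 • x = 0 := by
  rw [nsmul_eq_mul, Nat.cast_ofNat, h2, zero_mul]

theorem sec [CharP R 2] (J : Ideal R) :
    ∃ s : (R ⧸ J) →+ R, ∀ x, Ideal.Quotient.mk J (s x) = x := by
  haveI : Fact (Nat.Prime 2) := ⟨Nat.prime_two⟩
  letI : Module (ZMod 2) R := AddCommGroup.zmodModule (two_n CharTwo.two_eq_zero)
  letI : Module (ZMod 2) (R ⧸ J) := AddCommGroup.zmodModule (two_n (two_q J))
  obtain ⟨s, hs⟩ := ((Ideal.Quotient.mk J).toAddMonoidHom.toZModLinearMap 2).exists_rightInverse_of_surjective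
    (LinearMap.range_eq_top.2 Ideal.Quotient.mk_surjective)
  exact ⟨s.toAddMonoidHom, fun x => LinearMap.congr_fun hs x⟩

theorem sc_iff (x : R) (g : GQ) : (∃ a : R, Dv x (mr ρ g - a • 1)) ↔
    ∃ a : R ⧸ Ideal.span {x}, mr (rd (Ideal.span {x}) ρ) g = a • 1 := by
  have e : ∀ a : R, (a • (1 : M2 R)).map (Ideal.Quotient.mk (Ideal.span {x})) =
      Ideal.Quotient.mk (Ideal.span {x}) a • 1 := fun a => by
    ext i j
    fin_cases i <;> fin_cases j <;> simp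
  constructor
  · rintro ⟨a, ha⟩
    exact ⟨_, ((dv_iff' _ _ _).2 ha).trans (e a)⟩
  · rintro ⟨a, ha⟩
    obtain ⟨a, rfl⟩ := Ideal.Quotient.mk_surjective a
    exact ⟨a, (dv_iff' _ _ _).1 (ha.trans (e a).symm)⟩

theorem tr_add {y : GQ → M2 R} (hy : Co ρ y) (g h : GQ) :
    (y (g * h)).trace = (y g).trace + (y h).trace := by
  rw [hy, Matrix.trace_add, Matrix.trace_mul_cycle, mi, one_mul]

theorem of_pow' (h2 : (2 : R) = 0) {y : GQ → M2 R} (hy : Co ρ y) {σ : GQ}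
    (hd : (mr ρ σ).det = 1) {m : ℕ} (hm : Odd m) (hu : ∀ w, IsUnit (1 + (mr ρ σ).trace * w))
    (h1 : (y (σ ^ m)).trace = 0) (h3 : (mr ρ (σ ^ m) * y (σ ^ m)).trace = 0) :
    (y σ).trace = 0 ∧ (y σ * mr ρ σ).trace = 0 := by
  have e : mr ρ (σ ^ m) = mr ρ σ ^ m := by simp only [mr, map_pow, Units.val_pow_eq_pow_val]
  have a := trpow hy (σ := σ) (C := 1) (by rw [mul_one, one_mul]) m
  rw [one_mul, one_mul, h1, odd_cast h2 hm, one_mul] at a
  have b := trpow hy (σ := σ) (C := mr ρ (σ ^ m)) (by rw [← mm, ← mm, ← pow_succ', ← pow_succ]) m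
  rw [h3, odd_cast h2 hm, one_mul] at b
  obtain ⟨n, rfl⟩ := hm
  obtain ⟨u, w, hw⟩ := pw h2 (mr ρ σ) hd n
  rw [e, hw, add_mul, smul_mul_assoc, smul_mul_assoc, one_mul, Matrix.trace_add,
    Matrix.trace_smul, Matrix.trace_smul, ← a, smul_zero, zero_add, smul_eq_mul] at b
  refine ⟨a.symm, ?_⟩
  rw [Matrix.trace_mul_comm]
  exact ((hu w).mul_right_eq_zero).1 b.symm

theorem ns_pow (h2 : (2 : R) = 0) {σ : GQ} (hd : (mr ρ σ).det = 1) {m : ℕ} (hm : Odd m)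
    (hu : ∀ w, IsUnit (1 + (mr ρ σ).trace * w)) (h : ∃ a : R, mr ρ (σ ^ m) = a • 1) :
    ∃ a : R, mr ρ σ = a • 1 := by
  have e : mr ρ (σ ^ m) = mr ρ σ ^ m := by simp only [mr, map_pow, Units.val_pow_eq_pow_val]
  obtain ⟨n, rfl⟩ := hm
  obtain ⟨u, w, hw⟩ := pw h2 (mr ρ σ) hd n
  obtain ⟨a, ha⟩ := h
  obtain ⟨v, hv⟩ := (hu w).exists_left_inv
  rw [e, hw] at ha
  refine ⟨v * (a - u), ?_⟩
  rw [mul_smul, sub_smul, ← ha, add_sub_cancel_left, smul_smul, hv, one_smul]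

/-- non scalar elements see everything -/
theorem all_of {y : GQ → M2 R} (hy : Co ρ y) {s : GQ} (hs : s ∈ Ginf)
    (hn : ¬ ∃ a : R, mr ρ s = a • 1)
    (h : ∀ σ ∈ Ginf, (¬ ∃ a : R, mr ρ σ = a • 1) → (y σ).trace = 0 ∧ (y σ * mr ρ σ).trace = 0)
    (g : GQ) (hg : g ∈ Ginf) : (y g * mr ρ g).trace = 0 := by
  by_cases k : ∃ a : R, mr ρ g = a • 1
  swap
  · exact (h g hg k).2
  obtain ⟨a, ha⟩ := k
  have e := (h (g * s) (Ginf.mul_mem hg hs) (by
    rintro ⟨b, hb⟩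
    have e1 : mr ρ s = b • mr ρ g⁻¹ := by
      rw [← one_mul (mr ρ s), ← mi g, mul_assoc, ← mm, hb, mul_smul_comm, mul_one]
    have e2 : a • mr ρ g⁻¹ = 1 := by
      rw [← mi' (ρ := ρ) g, ha, smul_mul_assoc, one_mul]
    have e3 : a * mr ρ g⁻¹ 0 0 = 1 := by simpa using congrFun (congrFun e2 0) 0
    refine hn ⟨b * mr ρ g⁻¹ 0 0, ?_⟩
    rw [e1, mul_smul, ← e2, smul_smul (mr ρ g⁻¹ 0 0), mul_comm _ a, e3, one_smul])).1
  rw [tr_add hy, (h s hs hn).1, add_zero] at e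
  rw [ha, mul_smul_comm, mul_one, Matrix.trace_smul, e, smul_zero]

theorem ex_ns {δ : R} (hs : Car.Sp (mh ρ) Ginf δ) (hδ : δ ≠ 0) :
    ∃ s ∈ Ginf, ¬ ∃ a : R, mr ρ s = a • 1 := by
  by_contra k
  push Not at k
  have : ∀ Z ∈ Submodule.span R (Set.range fun h : Ginf => mh ρ h), Z 0 1 = 0 := fun Z hZ => by
    induction hZ using Submodule.span_induction with
    | mem x hx =>
      obtain ⟨g, rfl⟩ := hx
      obtain ⟨a, ha⟩ := k g g.2
      show mr ρ g 0 1 = 0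
      rw [ha]; simp
    | zero => rfl
    | add x y _ _ hx hy => rw [Matrix.add_apply, hx, hy, add_zero]
    | smul a x _ hx => rw [Matrix.smul_apply, hx, smul_zero]
  exact hδ (by simpa using this _ (hs (Matrix.single 0 1 1)))

/-- the saturated trivial classes -/
def Bt (ρ : GQ →* GL (Fin 2) R) (x : R) (M : M2 R) (χ : GQ → R) (b : GQ → M2 R) : Prop :=
  Ad χ ∧ ∀ g, x • b g = M - mr ρ g * M * mr ρ g⁻¹ + χ g • (1 : M2 R)

theorem cob_mem' {T : Finset ℕ} {D : ℕ → Set GQ} (h2 : (2 : R) = 0) (hL : Lv ρ T D) (M : M2 R)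
    {χ : GQ → R} (h : Ad χ) :
    (fun g => M - mr ρ g * M * mr ρ g⁻¹ + χ g • (1 : M2 R)) ∈ H1R ρ T :=
  (H1M ρ T).add_mem (x := fun g => M - mr ρ g * M * mr ρ g⁻¹) (y := fun g => χ g • (1 : M2 R))
    (cob_mem hL M) ⟨fun g k => by
      show χ (g * k) • (1 : M2 R) = χ g • 1 + mr ρ g * χ k • 1 * mr ρ g⁻¹
      rw [h.add, add_smul, mul_smul_comm, smul_mul_assoc, mul_one, mi'],
    h.opn.imp fun V hV => ⟨hV.1, fun g hg => by
      show χ g • (1 : M2 R) = 0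
      rw [hV.2 g hg, zero_smul]⟩,
    fun l hl P hP g hg => by
      show χ g • (1 : M2 R) = 0
      rw [h.unr (two_n h2) hP (fun e => hl (e ▸ hL.h2)) hg, zero_smul]⟩

end

variable {A : Type} [CommRing A] [IsDomain A] [IsDiscreteValuationRing A] [CharP A 2]
  {t : A} {ρ : GQ →* GL (Fin 2) A} {T : Finset ℕ} {D : ℕ → Set GQ}

theorem map_tr (J : Ideal A) (M : M2 A) (χ : GQ → A) (g : GQ) :
    (M - mr ρ g * M * mr ρ g⁻¹ + χ g • (1 : M2 A)).map (Ideal.Quotient.mk J) =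
      M.map (Ideal.Quotient.mk J) - mr (rd J ρ) g * M.map (Ideal.Quotient.mk J) *
        mr (rd J ρ) g⁻¹ + Ideal.Quotient.mk J (χ g) • 1 := by
  rw [Matrix.map_add _ (map_add _), Matrix.map_sub _ (map_sub _), Matrix.map_mul, Matrix.map_mul]
  congr 1
  ext i j
  fin_cases i <;> fin_cases j <;> simp

theorem Bt.za (ht : t ≠ 0) (lv : ∀ N, Lv (rd (tI t N) ρ) T D) {e : ℕ} {M : M2 A} {χ : GQ → A}
    {b : GQ → M2 A} (h : Bt ρ (t ^ e) M χ b) (n : ℕ) : ZA ρ T (t ^ n) b := by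
  refine ZA.cancel (pow_ne_zero e ht) ?_
  rw [← pow_add, ← za_iff]
  have := cob_mem' (two_q _) (lv (n + e)) (M.map (Ideal.Quotient.mk _))
    (h.1.comp (Ideal.Quotient.mk (tI t (n + e))).toAddMonoidHom)
  convert this using 1
  funext g
  simp only [red, Pi.smul_apply]
  rw [h.2 g, map_tr]
  rfl

theorem Bt.tr {x : A} (hx : x ≠ 0) {M : M2 A} {χ : GQ → A} {b : GQ → M2 A} (h : Bt ρ x M χ b)
    {φ : GQ} (h0 : χ φ = 0) {C : M2 A} (hC : mr ρ φ * C = C * mr ρ φ) : (C * b φ).trace = 0 := by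
  have := tr_cob C M hC
  have e := h.2 φ
  rw [h0, zero_smul, add_zero] at e
  rw [← e, mul_smul_comm, Matrix.trace_smul, smul_eq_mul] at this
  exact (mul_eq_zero.1 this).resolve_left hx

/-- one step of the descent -/
theorem step {δ u : A} {e : ℕ} (hu : t ^ e = u * δ ^ 5)
    (hsp : ∀ Z : M2 A, δ • Z ∈ Submodule.span A (mr ρ '' (Ginf : Set GQ)))
    (ho : IsOpen {g : GQ | rd (tI t (e + 1)) ρ g = 1}) {c : GQ → M2 A}
    (h1 : ZA ρ T (t ^ (e + 1)) c)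
    (h2 : ∀ g ∈ Ginf, (red (tI t (e + 1)) c g * mr (rd (tI t (e + 1)) ρ) g).trace = 0) :
    ∃ M χ b c', Bt ρ (t ^ e) M χ b ∧ c = b + t • c' := by
  have h3 := (za_iff _ _).2 h1
  obtain ⟨M, χ, a1, a2, a3⟩ := KillH9.shape (sp_rd hsp (tI t (e + 1)) le_rfl) h3.1 h2
  have ad : Ad χ := by
    obtain ⟨U, hU, h0⟩ := h3.2.1
    refine ⟨a1, ⟨U ⊓ (rd (tI t (e + 1)) ρ).ker, hU.inter ho, fun g hg => ?_⟩, a2⟩
    have := a3 g
    rw [h0 g hg.1, smul_zero, (mker hg.2).1, (mker hg.2).2, one_mul, mul_one, sub_self,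
      zero_add] at this
    simpa using (congrFun (congrFun this 0) 0).symm
  obtain ⟨M, rfl⟩ := ex_lift _ M
  obtain ⟨s, hs⟩ := sec (tI t (e + 1))
  have h4 : ∀ g, Dv (t ^ (e + 1)) (t ^ e • c g -
      (u • M - mr ρ g * (u • M) * mr ρ g⁻¹ + (u * s (χ g)) • (1 : M2 A))) := by
    intro g
    have h6 : Dv (t ^ (e + 1)) (δ ^ 5 • c g -
        (M - mr ρ g * M * mr ρ g⁻¹ + s (χ g) • (1 : M2 A))) := by
      rw [← dv_iff', map_tr _ M fun g => s (χ g), hs, ← a3 g]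
      ext i j
      simp [red]
    obtain ⟨X, hX⟩ := h6
    refine ⟨u • X, ?_⟩
    rw [smul_comm, ← hX, hu, mul_smul, mul_smul, mul_smul_comm, smul_mul_assoc, smul_sub, smul_add,
      smul_sub]
  choose X hX using h4
  refine ⟨u • M, fun g => u * s (χ g), c - t • X, X,
    ⟨(ad.comp s).comp (AddMonoidHom.mulLeft u), fun g => ?_⟩, by abel⟩
  rw [Pi.sub_apply, Pi.smul_apply, smul_sub, smul_smul, ← pow_succ, ← hX g, sub_sub_cancel]

/-- the two functionals vanish modulo `x` -/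
def LB (ρ : GQ →* GL (Fin 2) A) {ι : Type} (φ : ι → GQ) (x : A) (c : GQ → M2 A) : Prop :=
  ∀ i, ∀ C : M2 A, (C = 1 ∨ C = mr ρ (φ i)) → x ∣ (C * c (φ i)).trace

theorem ind (t0 : t ≠ 0) (lv : ∀ N, Lv (rd (tI t N) ρ) T D) {e : ℕ} {ι : Type} {φ : ι → GQ}
    (h0 : ∀ i, ∀ χ : GQ → A, Ad χ → χ (φ i) = 0)
    (st : ∀ c, ZA ρ T (t ^ (e + 1)) c → LB ρ φ (t ^ (e + 1)) c →
      ∃ M χ b c', Bt ρ (t ^ e) M χ b ∧ c = b + t • c') :
    ∀ k c, ZA ρ T (t ^ (e + k)) c → LB ρ φ (t ^ (e + k)) c →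
      ∃ M χ b c', Bt ρ (t ^ e) M χ b ∧ c = b + t ^ k • c' ∧ ZA ρ T (t ^ e) c' := by
  intro k
  induction k with
  | zero =>
    exact fun c h1 _ => ⟨0, 0, 0, c, ⟨⟨fun _ _ => by simp, ⟨⊤, isOpen_univ, fun _ _ => rfl⟩,
      fun _ _ => rfl⟩, fun g => by simp⟩, by simp, h1⟩
  | succ k ih =>
    intro c h1 h2
    have dv : t ^ (e + 1) ∣ t ^ (e + (k + 1)) := pow_dvd_pow t (by omega)
    obtain ⟨M, χ, b, c1, hb, rfl⟩ := st c (h1.of_dvd dv) fun i C hC => dv.trans (h2 i C hC)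
    obtain ⟨M1, χ1, b1, c', hb1, rfl, hc'⟩ := ih c1 (by
      refine ZA.cancel t0 ?_
      have := h1.sub (hb.za t0 lv _)
      rwa [add_sub_cancel_left, ← add_assoc, pow_succ] at this) (by
      intro i C hC
      have := h2 i C hC
      rw [Pi.add_apply, mul_add, Matrix.trace_add, hb.tr (pow_ne_zero e t0) (h0 i χ hb.1)
        (by rcases hC with rfl | rfl <;> simp), zero_add,
        Pi.smul_apply, mul_smul_comm, Matrix.trace_smul, smul_eq_mul, ← add_assoc,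
        pow_succ'] at this
      exact (mul_dvd_mul_iff_left t0).1 this)
    refine ⟨M + t • M1, fun g => χ g + t * χ1 g, b + t • b1, c',
      ⟨hb.1.plus (hb1.1.comp (AddMonoidHom.mulLeft t)), fun g => ?_⟩, ?_, hc'⟩
    · rw [Pi.add_apply, Pi.smul_apply, smul_add, smul_comm, hb.2 g, hb1.2 g, mul_add, add_mul,
        mul_smul_comm, smul_mul_assoc, smul_add, smul_sub, add_smul, mul_smul]
      abel
    · rw [smul_add, smul_smul, ← pow_succ', add_assoc]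

/-- the count -/
theorem count (t0 : t ≠ 0) (hf : Finite (A ⧸ tI t 1)) (lv : ∀ N, Lv (rd (tI t N) ρ) T D)
    (e : ℕ) : ∃ C : ℕ, ∀ (N : ℕ) (S : Set (GQ → M2 (A ⧸ tI t N))),
      S ⊆ H1R (rd (tI t N) ρ) T → (∀ k, N = e + k → ∀ c, red (tI t N) c ∈ S →
        ∃ M χ b c', Bt ρ (t ^ e) M χ b ∧ c = b + t ^ k • c' ∧ ZA ρ T (t ^ e) c') →
      Nat.card S ≤ C * Nat.card (A ⧸ tI t N) ^ 5 := by
  have fin : ∀ N, (H1R (rd (tI t N) ρ) T).Finite := fun N =>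
    haveI := fin_tI hf N
    finrC _ _ T (two_q _) (lv N).opn
  set B := ∑ n ∈ Finset.range (e + 1), Nat.card (H1R (rd (tI t n) ρ) T) with hB
  have le : ∀ n ≤ e, Nat.card (H1R (rd (tI t n) ρ) T) ≤ B := fun n hn =>
    Finset.single_le_sum (f := fun n => Nat.card (H1R (rd (tI t n) ρ) T))
      (fun _ _ => Nat.zero_le _) (Finset.mem_range.2 (by omega))
  obtain ⟨a, b0, hab⟩ := KillH9.two
  refine ⟨B * Nat.card (A ⧸ tI t e) ^ 5, fun N S hS hd => ?_⟩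
  haveI := fin_tI hf N
  haveI := fin_tI hf e
  by_cases hNe : N ≤ e
  · refine ((Nat.card_mono (fin N) hS).trans (le N hNe)).trans ?_
    rw [mul_assoc]
    exact Nat.le_mul_of_pos_right _ (mul_pos (pow_pos Nat.card_pos _) (pow_pos Nat.card_pos _))
  obtain ⟨k, rfl⟩ : ∃ k, N = e + k := ⟨N - e, by omega⟩
  haveI := fin_tI hf (e + k + e)
  haveI := (fin e).to_subtype
  have h1 := (card_le_rel (X := H1R (rd (tI t e) ρ) T × (Fin 5 → A ⧸ tI t (e + k + e))) S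
    (fun s x => ∃ M χ b c', Bt ρ (t ^ e) M χ b ∧ s = red (tI t (e + k)) (b + t ^ k • c') ∧
      red (tI t e) c' = x.1.1 ∧ x.2 = fun i => Ideal.Quotient.mk _
        (![M 0 1, M 1 0, M 1 1 - M 0 0, χ a, χ b0] i)) ?_ ?_).2
  · refine h1.trans ?_
    rw [Nat.card_prod, Nat.card_fun, Nat.card_eq_fintype_card (α := Fin 5), Fintype.card_fin,
      mul_assoc, ← mul_pow, mul_comm (Nat.card (A ⧸ tI t e))]
    exact Nat.mul_le_mul (le e le_rfl) (Nat.pow_le_pow_left (card_add hf _ _) 5)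
  · intro s h
    obtain ⟨c, rfl⟩ := red_surj _ s
    obtain ⟨M, χ, b, c', hb, rfl, hc'⟩ := hd k rfl c h
    exact ⟨(⟨red _ c', (za_iff _ _).2 hc'⟩, _), M, χ, b, c', hb, rfl, rfl, rfl⟩
  · rintro _ - _ - x ⟨M, χ, b, c, hb, rfl, h1, h2⟩ ⟨M', χ', b', c', hb', rfl, k1, k2⟩
    funext g
    simp only [red]
    rw [dv_iff']
    have d1 : Dv (t ^ (e + k)) (t ^ k • (c g - c' g)) := by
      rw [pow_add]
      exact ((dv_iff' _ _ _).1 (congrFun (h1.trans k1.symm) g)).smul _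
    have z := fun i => congrFun (h2.symm.trans k2) i
    have z0 := z 0
    have z1 := z 1
    have z2 := z 2
    have z3 := z 3
    have z4 := z 4
    simp only [Matrix.cons_val_zero, Matrix.cons_val_one, Matrix.cons_val, map_sub]
      at z0 z1 z2 z3 z4
    have d2 : Dv (t ^ (e + k)) (b g - b' g) := by
      refine Dv.cancel (pow_ne_zero e t0) ?_
      have d3 : Dv (t ^ (e + k + e)) (M - M' - (M 0 0 - M' 0 0) • (1 : M2 A)) := by
        rw [← dv_iff]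
        ext i j
        fin_cases i <;> fin_cases j <;> simp [z0, z1]
        linear_combination z2
      have d4 := d3.sub (d3.mul (mr ρ g) (mr ρ g⁻¹))
      have ad := (hb.1.plus (hb'.1.comp (-AddMonoidHom.id A))).comp
        (Ideal.Quotient.mk (tI t (e + k + e))).toAddMonoidHom
      have d5 : t ^ (e + k + e) ∣ χ g - χ' g := by
        have := hab _ _ (two_n (two_q _)) ad.add ad.opn ad.inf (by simp [z3, two_q])
          (by simp [z4, two_q]) g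
        rw [← Ideal.mem_span_singleton, ← Ideal.Quotient.eq_zero_iff_mem, sub_eq_add_neg]
        exact this
      obtain ⟨w, hw⟩ := d5
      have d6 : Dv (t ^ (e + k + e)) ((χ g - χ' g) • (1 : M2 A)) := ⟨w • 1, by rw [hw, mul_smul]⟩
      rw [← pow_add, smul_sub, hb.2 g, hb'.2 g]
      convert d4.add d6 using 1
      rw [mul_sub, sub_mul, mul_smul_comm, smul_mul_assoc, mul_one, mi', mul_sub, sub_mul,
        sub_smul (χ g)]
      abel
    convert d2.add d1 using 1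
    simp only [Pi.add_apply, Pi.smul_apply, smul_sub]
    abel

/-- **the dual classes are killed by finitely many non scalar elements, uniformly in the level** -/
theorem killU (ht : Irreducible t) (hf : Finite (A ⧸ tI t 1))
    (lv : ∀ N, Lv (rd (tI t N) ρ) T D) (det : ∀ g, (mr ρ g).det = 1)
    (irr : ∃ δ : A, δ ≠ 0 ∧ ∀ Z : M2 A, δ • Z ∈ Submodule.span A (mr ρ '' (Ginf : Set GQ)))
    (nu : ∀ g, ¬ IsUnit (mr ρ g).trace) :
    ∃ (e C r : ℕ) (σ : Fin r → GQ) (U : Subgroup GQ), IsOpen (U : Set GQ) ∧ U.Normal ∧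
      (∀ g ∈ U, rd (tI t (e + 1)) ρ g = 1) ∧
      (∀ i, σ i ∈ Ginf ∧ ¬ ∃ a : A, Dv (t ^ (e + 1)) (mr ρ (σ i) - a • 1)) ∧
      ∀ (φ : Fin r → GQ) (m : Fin r → ℕ), (∀ i, Odd (m i) ∧ (φ i)⁻¹ * σ i ^ m i ∈ U) →
        (∀ i, ¬ ∃ a : A, Dv (t ^ (e + 1)) (mr ρ (φ i) - a • 1)) ∧ ∀ N : ℕ,
          Nat.card {y : GQ → M2 (A ⧸ tI t N) // y ∈ H1R (rd (tI t N) ρ) T ∧
            ∀ i, (y (φ i)).trace = 0 ∧ (mr (rd (tI t N) ρ) (φ i) * y (φ i)).trace = 0} ≤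
          C * Nat.card (A ⧸ tI t N) ^ 5 := by
  classical
  have t0 : t ≠ 0 := ht.ne_zero
  obtain ⟨δ, hδ, hsp⟩ := irr
  obtain ⟨e, u, hu⟩ := ex_e ht hδ 5
  obtain ⟨C, hC⟩ := count t0 hf lv e
  obtain ⟨i0, hi⟩ := IsAlgClosed.exists_pow_nat_eq (-1 : Qb) (n := 2) two_pos
  obtain ⟨r0, hr⟩ := IsAlgClosed.exists_pow_nat_eq (2 : Qb) (n := 2) two_pos
  haveI := fin_tI hf (e + 1)
  set ρ1 := rd (tI t (e + 1)) ρ with hρ1
  have h2 : (2 : A ⧸ tI t (e + 1)) = 0 := two_q _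
  have fin := finrC _ ρ1 T h2 (lv _).opn
  haveI := fin.to_subtype
  obtain ⟨s0, hs0, hn0⟩ := ex_ns (sp_rd hsp (tI t (e + 1)) le_rfl) (by
    rw [Ne, Ideal.Quotient.eq_zero_iff_mem, Ideal.mem_span_singleton]
    intro k
    have : t ^ (e + 1) ∣ t ^ e := by
      rw [hu, pow_succ δ]
      exact (k.mul_left _).mul_left _
    rw [pow_dvd_pow_iff t0 ht.not_isUnit] at this
    omega)
  have hd : ∀ g, (mr ρ1 g).det = 1 := fun g => by
    rw [hρ1, mr_rd, ← RingHom.mapMatrix_apply, ← RingHom.map_det, det, map_one]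
  have un : ∀ g w, IsUnit (1 + (mr ρ1 g).trace * w) := fun g w => by
    obtain ⟨w, rfl⟩ := Ideal.Quotient.mk_surjective w
    have m1 : -((mr ρ g).trace * w) ∈ nonunits A :=
      (IsLocalRing.maximalIdeal A).neg_mem (Ideal.mul_mem_right _ _ (nu g))
    have := (IsLocalRing.isUnit_one_sub_self_of_mem_nonunits _ m1).map
      (Ideal.Quotient.mk (tI t (e + 1)))
    rw [hρ1, mr_rd, tr_map]
    simpa using this
  let B := {y : H1R ρ1 T // ∃ σ ∈ Ginf, (¬ ∃ a : A ⧸ tI t (e + 1), mr ρ1 σ = a • 1) ∧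
    ¬ ((y.1 σ).trace = 0 ∧ (y.1 σ * mr ρ1 σ).trace = 0)}
  choose s hs1 hs2 hs3 using fun y : B => y.2
  let eB := (Finite.equivFin B).symm
  choose V hV hV0 using fun y : H1R ρ1 T => y.2.2.1
  set W : Subgroup GQ := (ρ1.ker ⊓ ⨅ y, V y) ⊓
    (MulAction.stabilizer GQ i0 ⊓ MulAction.stabilizer GQ r0) with hW
  have ho : IsOpen (W : Set GQ) := by
    rw [hW, Subgroup.coe_inf, Subgroup.coe_inf, Subgroup.coe_inf, Subgroup.coe_iInf]
    exact ((lv _).opn.inter (isOpen_iInter_of_finite hV)).inter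
      ((Vale.Agent.P022E.GW.Kc.stab_open _).inter (Vale.Agent.P022E.GW.Kc.stab_open _))
  have hle := Subgroup.normalCore_le W
  refine ⟨e, C, Nat.card B, fun i => s (eB i), W.normalCore,
    Vale.Agent.P022D.Sel.opn_core _ ho, inferInstance, fun g hg => (hle hg).1.1,
    fun i => ⟨hs1 _, fun k => hs2 _ ((sc_iff _ _).1 k)⟩, fun φ m hφ => ?_⟩
  have em : ∀ i, mr ρ1 (φ i) = mr ρ1 (s (eB i) ^ m i) := fun i => by
    have h1 : ρ1 ((φ i)⁻¹ * s (eB i) ^ m i) = 1 := (hle (hφ i).2).1.1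
    rw [map_mul, map_inv, inv_mul_eq_one] at h1
    exact congrArg Units.val h1
  have ey : ∀ y ∈ H1R ρ1 T, ∀ i, y (φ i) = y (s (eB i) ^ m i) := fun y hy i => by
    have h1 := hy.1 (φ i) ((φ i)⁻¹ * s (eB i) ^ m i)
    have h0 : y ((φ i)⁻¹ * s (eB i) ^ m i) = 0 :=
      hV0 ⟨y, hy⟩ _ (Subgroup.mem_iInf.1 (hle (hφ i).2).1.2 _)
    rw [mul_inv_cancel_left, h0, mul_zero, zero_mul, add_zero] at h1
    exact h1.symm
  refine ⟨fun i k => hs2 _ (ns_pow h2 (hd _) (hφ i).1 (un _) (em i ▸ (sc_iff _ _).1 k)),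
    fun N => ?_⟩
  have I := ind t0 lv (e := e) (φ := φ) (fun i χ h => by
    have a1 := h.add (φ i) ((φ i)⁻¹ * s (eB i) ^ m i)
    rw [mul_inv_cancel_left, h.inf _ (Ginf.pow_mem (hs1 _) _), h.h8 (two_n CharTwo.two_eq_zero)
      hi hr (hle (hφ i).2).2.1 (hle (hφ i).2).2.2, add_zero] at a1
    exact a1.symm) (fun c h1 h3 => by
    have hy := (za_iff _ _).2 h1
    refine step hu hsp (lv _).opn h1 (all_of hy.1 hs0 hn0 fun σ k1 k2 => ?_)
    by_contra k3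
    obtain ⟨i, hb⟩ := eB.surjective ⟨⟨_, hy⟩, σ, k1, k2, k3⟩
    have b1 : (red (tI t (e + 1)) c (φ i)).trace = 0 := by
      rw [red, tr_map]
      exact Ideal.Quotient.eq_zero_iff_mem.2 (Ideal.mem_span_singleton.2
        (by simpa using h3 i 1 (Or.inl rfl)))
    have b2 : (mr ρ1 (φ i) * red (tI t (e + 1)) c (φ i)).trace = 0 := by
      rw [red, hρ1, mr_rd, ← Matrix.map_mul, tr_map]
      exact Ideal.Quotient.eq_zero_iff_mem.2 (Ideal.mem_span_singleton.2 (h3 i _ (Or.inr rfl)))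
    rw [ey _ hy] at b1 b2
    rw [em] at b2
    have b3 := of_pow' h2 hy.1 (hd _) (hφ i).1 (un _) b1 b2
    rw [hb] at b3
    exact hs3 ⟨⟨_, hy⟩, σ, k1, k2, k3⟩ b3)
  refine hC N {y | y ∈ H1R (rd (tI t N) ρ) T ∧
    ∀ i, (y (φ i)).trace = 0 ∧ (mr (rd (tI t N) ρ) (φ i) * y (φ i)).trace = 0}
    (fun y hy => hy.1) fun k hk c hc => ?_
  subst hk
  refine I k c ((za_iff _ _).1 hc.1) fun i C hC => ?_
  rw [← Ideal.mem_span_singleton, ← Ideal.Quotient.eq_zero_iff_mem, ← tr_map, Matrix.map_mul]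
  rcases hC with rfl | rfl
  · rw [Matrix.map_one _ (map_zero _) (map_one _), one_mul]
    exact (hc.2 i).1
  · exact (hc.2 i).2

end P022S.Sel.KU
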