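import Vale.Agent.P022G.RecR
import Vale.Agent.P022G.Sel.Defs
import Vale.Agent.P022E.GW.TauG

/-!
# P022S, block Sel: reciprocity at arbitrary auxiliary primes
-/

set_option linter.all false

noncomputable section

namespace P022S.Sel

open NumberField
open Vale.Agent.P022 Vale.Agent.P022.H443 Vale.Agent.P022E.GW Vale.Agent.P022G.RecR
open Vale.Agent.P027M.S (Inert)
open Vale.Agent.P022D.Sel (M2 IsDec Stab)
open Vale.Agent.P022D.Sel.AdmA (conj_conj stab_conj)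
open Vale.Agent.P022D.L2c (Hm Cob IsZ2 cup up)
open Vale.Agent.P022D.W (dec dec_gen phi_mem inP_le_dec conj_inP)
open scoped Pointwise

namespace Rs

variable {R : Type} [CommRing R] {ρ : GQ →* M2 R}

/-- the local computation at an auxiliary prime -/
theorem loc (h2 : (2 : R) = 0) (μ : R →+ ZMod 2) {c y : GQ → M2 R}
    (ho : IsOpen {g : GQ | ρ g = 1}) (hc : Cc ρ c) (oc : Op c) (hy : Cc ρ y) (oy : Op y) {q : ℕ}
    {P : Ideal (𝓞 Qb)} {τ φ : GQ} (h : Ov q P) (q2 : q ≠ 2) (hτ : Gn q P τ) (hφ : Fb q P φ)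
    (ur : ∀ g, Inert P g → ρ g = 1) (uy : ∀ g, Inert P g → y g = 0) :
    ∃ u : GQ → ZMod 2, Ch (dec P) u ∧
      Ch (dec P) (fun g => μ (c τ * y φ).trace * Kc.kq (q : Qb) g) ∧
      (∀ g, Inert P g → u g = 0) ∧ u φ = 1 ∧
      Cb (dec P) (zz μ ρ c y - cup u fun g => μ (c τ * y φ).trace * Kc.kq (q : Qb) g) := by
  obtain ⟨u, U, oU, u0, ua, ui, u1⟩ := RecP.ex_u (F := ZMod 2) h q2 hφ
  obtain ⟨V, oV, y0⟩ := id oy
  have lu : IsLocallyConstant u := RecP.lc U oU fun g σ hσ => by rw [ua, u0 σ hσ, add_zero]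
  have lk := Kc.kq_lc (q : Qb)
  have ka : ∀ g k : GQ, Kc.kq (q : Qb) (g * k) = Kc.kq (q : Qb) g + Kc.kq (q : Qb) k :=
    fun g k => Kc.kq_add (map_natCast g q) (map_natCast k q)
  have wa : ∀ g ∈ dec P, ∀ k, μ (c τ * y (g * k)).trace =
      μ (c τ * y g).trace + μ (c τ * y k).trace := fun g hg k => by
    rw [hy, mul_add, Matrix.trace_add, map_add, ← tr_ad (ρ := ρ) g (c τ) (y k),
      fx h2 hc oc h q2 ur hτ.1 hg]
  have lw : IsLocallyConstant fun g => μ (c τ * y g).trace :=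
    (hy.lc oy).comp fun x => μ (c τ * x).trace
  have gen : ∀ g ∈ dec P, μ (c τ * y g).trace = μ (c τ * y φ).trace * u g := by
    intro g hg
    obtain ⟨k, s, v, hs, hv, rfl⟩ := dec_gen h.1 h.2.1 h.2.2 hφ hg (kr ρ ⊓ (U ⊓ V))
      (ho.inter (oU.inter oV))
    have v1 : ρ v = 1 := hv.1
    rw [hy, uy s hs, mul_zero, zero_mul, add_zero, hy, y0 v hv.2.2, v1, r1 v1, zero_add,
      one_mul, mul_one, ua, ua, ui s hs, u0 v hv.2.1, zero_add, add_zero]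
    clear hg
    induction k with
    | zero => rw [pow_zero, hy.one, ui 1 (inP P).one_mem, mul_zero, mul_zero, Matrix.trace_zero,
        map_zero]
    | succ k ih => rw [pow_succ', wa φ (phi_mem h.1 h.2.1 hφ), ih, ua, u1]; ring
  have ci : ∀ s, Inert P s → ∀ x : M2 R,
      μ (c s * x).trace = Kc.kq (q : Qb) s * μ (c τ * x).trace := fun s hs x => by
    have := Tg.mult (F := ZMod 2) h q2 hτ (a := fun g => μ (c g * x).trace)
      (fun a ha b _ => by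
        rw [hc, ur a ha, r1 (ur a ha), one_mul, mul_one, add_mul, Matrix.trace_add, map_add])
      (oc.imp fun W hW => ⟨hW.1, fun σ m _ => by
        rw [hW.2 σ m, zero_mul, Matrix.trace_zero, map_zero]⟩) hs
    rwa [show up (ZMod 2) (Kc.kq (q : Qb) s) = Kc.kq (q : Qb) s from ZMod.cast_id 2 _] at this
  have zz2 := z2 μ ho hc oc hy oy
  have cb := unrC (ZMod 2) ⊤ q P
    (fun g k => zz μ ρ c y g k - Kc.kq (q : Qb) g * μ (c τ * y k).trace) isOpen_univ h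
    ⟨(zz2.1.comp_continuous (f := fun p : (⊤ ⊓ dec P : Subgroup GQ) × (⊤ ⊓ dec P : Subgroup GQ) =>
      ((p.1 : GQ), (p.2 : GQ))) (by fun_prop)).sub
      ((lk.comp_continuous (by fun_prop)).mul (lw.comp_continuous (by fun_prop))),
      fun g k l => by
        have := zz2.2 g k l
        simp only [rs, Subgroup.coe_mul, ka, wa k k.2.2]
        linear_combination this⟩
    fun g _ k _ i _ hi => by
      have s1 := ur i hi
      have e := tr_ad (ρ := ρ) g (c i) (y k)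
      constructor
      · simp only [zz, hc g i, ka, mul_inv_rev, map_mul, s1, r1 s1, mul_one, one_mul, add_mul,
          Matrix.trace_add, map_add, e, ci i hi]
        ring
      · simp only [zz, hy k i, uy i hi, mul_zero, zero_mul, add_zero]
  rw [top_inf_eq] at cb
  obtain ⟨ζ, lζ, hζ⟩ := cb
  refine ⟨u, RecP.ch_of _ lu fun g _ k _ => ua g k,
    RecP.ch_of _ ((IsLocallyConstant.const _).mul lk) fun g _ k _ => by rw [ka, mul_add],
    ui, u1, fun g => ζ g + μ (c τ * y φ).trace * (Kc.kq (q : Qb) g * u g),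
    lζ.add (((IsLocallyConstant.const _).mul (lk.mul lu)).comp_continuous continuous_subtype_val),
    fun g k => ?_⟩
  have two : (2 : ZMod 2) = 0 := rfl
  have e := hζ g k
  simp only [rs, gen k k.2] at e
  simp only [rs, Pi.sub_apply, cup, Subgroup.coe_mul, ua, ka, e]
  linear_combination (μ (c τ * y φ).trace * Kc.kq (q : Qb) k * u g) * two

/-- **reciprocity** -/
theorem rec1 (h2 : (2 : R) = 0) (ρ : GQ →* M2 R) (T Q : Finset ℕ) (D : ℕ → Set GQ)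
    (P : ℕ → Ideal (𝓞 Qb)) (τ φ : ℕ → GQ) (c y : GQ → M2 R) (a : ℕ → M2 R)
    (ho : IsOpen {g : GQ | ρ g = 1}) (h0 : 0 ∈ T) (hT2 : 2 ∈ T) (hD : ∀ l ∈ T, IsDec l (D l))
    (ur : ∀ l ∉ T, ∀ P : Ideal (𝓞 Qb), Ov l P → ∀ g, Inert P g → ρ g = 1)
    (hQ : ∀ q ∈ Q, q ∉ T ∧ Ov q (P q) ∧ Gn q (P q) (τ q) ∧ Fb q (P q) (φ q))
    (cc : Cc ρ c) (oc : Op c) (uc : Ur (T ∪ Q) c)
    (lc : ∀ l ∈ T, ∀ g ∈ D l, c g = a l - ρ g * a l * ρ g⁻¹)
    (cy : Cc ρ y) (oy : Op y) (uy : Ur T y) : ∑ q ∈ Q, (c (τ q) * y (φ q)).trace = 0 := by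
  classical
  refine sep (fun x => by rw [← two_mul, h2, zero_mul]) fun μ => ?_
  have zz2 := z2 μ ho cc oc cy oy
  have q2 : ∀ q ∈ Q, q ≠ 2 := fun q hq e => (hQ q hq).1 (e ▸ hT2)
  choose u k1 k2 k3 k4 k5 using fun q : Q => loc h2 μ ho cc oc cy oy (hQ q q.2).2.1 (q2 q q.2)
    (hQ q q.2).2.2.1 (hQ q q.2).2.2.2
    (ur q (hQ q q.2).1 _ (hQ q q.2).2.1) (uy q (hQ q q.2).1 _ (hQ q q.2).2.1)
  rw [map_sum, ← Finset.sum_coe_sort Q]
  refine Eq.trans (Finset.sum_congr rfl fun q _ => by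
      rw [((Tg.gn_iff (hQ q q.2).2.1).1 (hQ q q.2).2.2.1).2, mul_one])
    (oneC (ZMod 2) ⊤ (zz μ ρ c y) Q (fun q => q) (fun q => P q) (fun q => τ q) (fun q => φ q) u
    (fun q g => μ (c (τ q) * y (φ q)).trace * Kc.kq ((q : ℕ) : Qb) g) isOpen_univ
    (RecP.z2_le zz2 ⊤)
    (fun q => ⟨(hQ q q.2).2.1, q2 q q.2, (hQ q q.2).2.2.1, (hQ q q.2).2.2.2, le_top⟩)
    (fun i j g _ hg => ?_) (fun q => ⟨k1 q, k2 q, k3 q, k4 q, k5 q⟩) (fun D' hD' => ?_)
    fun p P' hp hn => ?_)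
  · by_contra ne
    obtain ⟨a1, a2, a3⟩ := (hQ i i.2).2.1
    obtain ⟨b1, b2, b3⟩ := (hQ j j.2).2.1
    have e := (hg _).1 a3
    rw [show g • ((i : ℕ) : 𝓞 Qb) = (i : ℕ) from
      map_natCast (MulSemiringAction.toRingHom GQ (𝓞 Qb) g) _] at e
    refine Vale.Agent.P027M.S.Loc.not_mem b2 b3 (c := (i : ℕ)) (Nat.isCoprime_iff_coprime.2
      ((Nat.coprime_primes b1 a1).2 fun k => ne (Subtype.ext k.symm))) (by exact_mod_cast e)
  · obtain ⟨-, c₀, k, e0⟩ | ⟨lp, -⟩ := hD'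
    swap
    · exact absurd lp Nat.not_prime_zero
    obtain ⟨-, c₁, k1, e⟩ | ⟨lp, -⟩ := hD 0 h0
    swap
    · exact absurd lp Nat.not_prime_zero
    obtain ⟨t, ht⟩ := conj_conj k k1
    refine cb_of μ cy oy _ (c t + ρ t * a 0 * ρ t⁻¹) fun g hg => ?_
    have hg' : g ∈ ({1, c₀} : Set GQ) := e0 ▸ hg.2
    rcases hg' with rfl | rfl
    · exact cob cc (g' := 1) (by group) (lc 0 h0 1 (by rw [e]; exact Or.inl rfl))
    · exact cob cc ht (lc 0 h0 c₁ (by rw [e]; exact Or.inr rfl))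
  · by_cases hT : p ∈ T
    · obtain ⟨e, -⟩ | ⟨lp, P₀, p0, p1, e⟩ := hD p hT
      · exact absurd e hp.1.ne_zero
      obtain ⟨t, rfl⟩ := Vale.Agent.P027M.F.Tra.trans lp p0 hp.2.1 p1 hp.2.2
      exact cb_of μ cy oy _ (c t + ρ t * a p * ρ t⁻¹) fun g hg =>
        cob cc (g' := t⁻¹ * g * t) (by group) (lc p hT _ (by rw [e]; exact stab_conj hg.2))
    have hq : p ∉ Q := fun hq => by
      obtain ⟨a1, a2, a3⟩ := (hQ p hq).2.1
      obtain ⟨t, rfl⟩ := Vale.Agent.P027M.F.Tra.trans a1 a2 hp.2.1 a3 hp.2.2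
      exact hn ⟨p, hq⟩ t trivial fun x => Ideal.smul_mem_pointwise_smul_iff.symm
    refine unrC (ZMod 2) ⊤ p P' _ isOpen_univ hp (RecP.z2_le zz2 _) fun g _ h _ i _ hi => ?_
    have s1 := ur p hT P' hp i hi
    have c1 := uc p (by simp [hT, hq]) P' hp i hi
    have y1 := uy p hT P' hp i hi
    simp only [zz, cc g i, cy h i, c1, y1, mul_inv_rev, map_mul, s1, r1 s1, mul_zero,
      zero_mul, add_zero, mul_one, one_mul, and_self]

end Rs

open P022G.Sel in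
/-- **reciprocity** at arbitrary auxiliary primes -/
def RECS : Prop := ∀ (R : Type) [CommRing R] [Finite R] (ρ : GQ →* GL (Fin 2) R)
  (T Q : Finset ℕ) (D : ℕ → Set GQ) (P : ℕ → Ideal (𝓞 Qb)) (τ φ : ℕ → GQ)
  (c y : GQ → M2 R) (a : ℕ → M2 R), (2 : R) = 0 → Lv ρ T D →
  (∀ q ∈ Q, q ∉ T ∧ Ov q (P q) ∧ Gn q (P q) (τ q) ∧ Fb q (P q) (φ q)) →
  TanR ρ T Q D c a → y ∈ H1R ρ T → ∑ q ∈ Q, (c (τ q) * y (φ q)).trace = 0

theorem recS : RECS := by
  intro R _ _ ρ T Q D P τ φ c y a h2 lv hQ hc hy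
  have e1 : {g : GQ | ((Units.coeHom (M2 R)).comp ρ) g = 1} = {g : GQ | ρ g = 1} := by
    ext g
    exact Units.val_eq_one
  refine Rs.rec1 h2 ((Units.coeHom (M2 R)).comp ρ) T Q D P τ φ c y a
    (e1 ▸ lv.opn) lv.h0 lv.h2 lv.dec (fun l hl P hP g hg => ?_) hQ hc.coc hc.opn
    (fun l hl P hP g hg => ?_) hc.loc hy.1 hy.2.1 hy.2.2
  · exact Units.val_eq_one.2 (lv.unr l hl P hP g hg)
  · rw [Finset.mem_union, not_or] at hl
    exact hc.unr l hl.1 hl.2 P hP g hg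

end P022S.Sel
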