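import Vale.Agent.P022S.Sel.Defs

/-!
# P022S, block Sel: the classes which are trivial at a large set of places
-/

set_option linter.all false

noncomputable section

namespace P022S.Sel.Sh

open NumberField
open Vale.Agent.P022
open Vale.Agent.P027M.S (Inert)
open Vale.Agent.P022D.Sel (M2 IsDec Ginf Stab)
open Vale.Agent.P022E.GW (Ov Fb Gn Op Ur)
open Vale.Agent.P022G
open P022G.Sel P022G.Sel.Bas
open P022G.Sel.Sh hiding one_prime detect

variable {A : Type} [CommRing A] [IsDomain A] [IsDiscreteValuationRing A] [CharP A 2]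
  {t : A} {ρ : GQ →* GL (Fin 2) A} {T : Finset ℕ} {D : ℕ → Set GQ}

/-- one prime which sees the element `g` -/
theorem one_prime (hN : Nice0 t ρ T D)
    (E : ℕ) (U : Subgroup GQ) (hU : IsOpen (U : Set GQ)) (S : Finset ℕ) (g : GQ) :
    ∃ (q : ℕ) (φ : GQ) (m : ℕ) (C : M2 A), q.Prime ∧ q ∉ S ∧ IsFrob q φ ∧ Odd m ∧
      φ⁻¹ * g ^ m ∈ U ∧ rd (tI t (E + 1)) ρ (φ⁻¹ * g ^ m) = 1 ∧ mr ρ φ * C = C * mr ρ φ ∧
      Dv (t ^ (E + 1)) (C - mr ρ g) := by
  have hV : IsOpen ((U ⊓ (rd (tI t (E + 1)) ρ).ker : Subgroup GQ) : Set GQ) :=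
    hU.inter (hN.lv (E + 1)).opn
  have h2 : (2 : A) = 0 := CharTwo.two_eq_zero
  obtain ⟨q, a, b, φ, m, c, d, e⟩ := aux0 _ hV S g
  have e1 : Dv (t ^ (E + 1)) (mr ρ φ - mr ρ g ^ m) := by
    rw [← dv_iff']
    have h1 : rd (tI t (E + 1)) ρ (φ⁻¹ * g ^ m) = 1 := e.2
    rw [map_mul, map_inv, inv_mul_eq_one] at h1
    have h3 : mr ρ g ^ m = mr ρ (g ^ m) := by simp only [mr, map_pow, Units.val_pow_eq_pow_val]
    rw [h3]
    exact congrArg Units.val h1
  obtain ⟨n, rfl⟩ := d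
  obtain ⟨u, w, hw⟩ := pw h2 (mr ρ g) (hN.det g) n
  have hv : IsUnit (1 + (mr ρ g).trace * w) := by
    have m1 : -((mr ρ g).trace * w) ∈ nonunits A :=
      (IsLocalRing.maximalIdeal A).neg_mem (Ideal.mul_mem_right _ _ (hN.nu g))
    simpa using IsLocalRing.isUnit_one_sub_self_of_mem_nonunits _ m1
  obtain ⟨v, hv'⟩ := hv.exists_left_inv
  refine ⟨q, φ, 2 * n + 1, v • (mr ρ φ - u • 1), a, b, c, ⟨n, rfl⟩, e.1, e.2, ?_, ?_⟩
  · rw [mul_smul_comm, smul_mul_assoc, mul_sub, sub_mul, mul_smul_comm, smul_mul_assoc, mul_one,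
      one_mul]
  · obtain ⟨X, hX⟩ := e1
    refine ⟨v • X, ?_⟩
    rw [smul_comm, ← hX, hw, ← sub_sub, smul_sub v (_ - _), smul_smul, hv', one_smul]

/-- a finite set of places which detects the traces modulo `t ^ (E + 1)` -/
theorem detect (hF : FINR) (ht : Irreducible t) (hf : Finite (A ⧸ tI t 1))
    (hN : Nice0 t ρ T D) (E : ℕ) : ∃ (T₁ : Finset ℕ) (D₁ : ℕ → Set GQ), T ⊆ T₁ ∧
      (∀ l ∈ T, D₁ l = D l) ∧ (∀ l ∈ T₁, IsDec l (D₁ l)) ∧
      ∀ c, ZA ρ T (t ^ (E + 1)) c → LA ρ T₁ D₁ (t ^ (E + 1)) c →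
        ∀ g, t ^ (E + 1) ∣ (c g * mr ρ g).trace := by
  classical
  haveI := fin_tI hf (E + 1)
  have fin := hF _ (rd (tI t (E + 1)) ρ) T (two_q _) (hN.lv _).opn
  have main : ∀ s : Finset (GQ → M2 (A ⧸ tI t (E + 1))), ∃ (T₁ : Finset ℕ) (D₁ : ℕ → Set GQ),
      T ⊆ T₁ ∧ (∀ l ∈ T, D₁ l = D l) ∧ (∀ l ∈ T₁, IsDec l (D₁ l)) ∧
      ∀ c, red (tI t (E + 1)) c ∈ s → ZA ρ T (t ^ (E + 1)) c → LA ρ T₁ D₁ (t ^ (E + 1)) c →
        ∀ g, t ^ (E + 1) ∣ (c g * mr ρ g).trace := by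
    intro s
    induction s using Finset.induction_on with
    | empty => exact ⟨T, D, le_rfl, fun _ _ => rfl, (hN.lv 0).dec, fun c h => by simp at h⟩
    | insert z s _ ih =>
      obtain ⟨T₁, D₁, a1, a2, a3, a4⟩ := ih
      by_cases hz : z ∈ H1R (rd (tI t (E + 1)) ρ) T ∧
          ∃ g, (z g * mr (rd (tI t (E + 1)) ρ) g).trace ≠ 0
      swap
      · refine ⟨T₁, D₁, a1, a2, a3, fun c hc h1 h2 g => ?_⟩
        rcases Finset.mem_insert.1 hc with e | e
        · have h3 : (z g * mr (rd (tI t (E + 1)) ρ) g).trace = 0 := by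
            by_contra h4
            exact hz ⟨e ▸ (za_iff _ _).2 h1, g, h4⟩
          rw [← e, mr_rd, red, ← Matrix.map_mul, tr_map] at h3
          exact Ideal.mem_span_singleton.1 (Ideal.Quotient.eq_zero_iff_mem.1 h3)
        · exact a4 c e h1 h2 g
      obtain ⟨hz, g0, hg0⟩ := hz
      obtain ⟨U, hU, hU0⟩ := hz.2.1
      obtain ⟨q, φ, m, C, q1, q2, ⟨P, p1, p2, p3⟩, hm, u1, u2, c1, c2⟩ :=
        one_prime hN E U hU T₁ g0
      have ne : ∀ l ∈ T₁, l ≠ q := fun l hl e => q2 (e ▸ hl)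
      refine ⟨insert q T₁, Function.update D₁ q {g | Stab P g},
        a1.trans (Finset.subset_insert _ _), fun l hl => ?_, fun l hl => ?_,
        fun c hc h1 h2 g => ?_⟩
      · rw [Function.update_of_ne (ne l (a1 hl)), a2 l hl]
      · rcases Finset.mem_insert.1 hl with rfl | hl
        · rw [Function.update_self]
          exact Or.inr ⟨q1, P, p1, p2, rfl⟩
        · rw [Function.update_of_ne (ne l hl)]
          exact a3 l hl
      rcases Finset.mem_insert.1 hc with e | e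
      · exfalso
        have b1 := h2 q (Finset.mem_insert_self _ _) φ (by
          rw [Function.update_self]
          exact Vale.Agent.P022D.W.phi_mem q1 p1 p3) C c1
        have b2 : (C.map (Ideal.Quotient.mk (tI t (E + 1))) * z φ).trace = 0 := by
          rw [← e, red, ← Matrix.map_mul, tr_map]
          exact Ideal.Quotient.eq_zero_iff_mem.2 (Ideal.mem_span_singleton.2 b1)
        have b3 : z (g0 ^ m) = z φ := by
          have := hz.1 φ (φ⁻¹ * g0 ^ m)
          rwa [mul_inv_cancel_left, hU0 _ u1, mul_zero, zero_mul, add_zero] at this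
        rw [(dv_iff' _ _ _).2 c2, ← b3, ← mr_rd, trpow hz.1 rfl, odd_cast (two_q _) hm, one_mul,
          Matrix.trace_mul_comm] at b2
        exact hg0 b2
      · refine a4 c e h1 (fun l hl φ' hφ' => h2 l (Finset.mem_insert_of_mem hl) φ' ?_) g
        rwa [Function.update_of_ne (ne l hl)]
  obtain ⟨T₁, D₁, a1, a2, a3, a4⟩ := main fin.toFinset
  exact ⟨T₁, D₁, a1, a2, a3, fun c h1 => a4 c (fin.mem_toFinset.2 ((za_iff _ _).2 h1)) h1⟩

theorem za0 (ht : t ≠ 0) (hN : Nice0 t ρ T D) {e : ℕ} {M : M2 A} {b : GQ → M2 A}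
    (h : Bs ρ (t ^ e) M b) (n : ℕ) : ZA ρ T (t ^ n) b := by
  refine ZA.cancel (pow_ne_zero e ht) ?_
  rw [← pow_add, ← za_iff]
  have := cob_mem (hN.lv (n + e)) (M.map (Ideal.Quotient.mk _))
  convert this using 1
  funext g
  simp only [red, Pi.smul_apply]
  rw [h g, Matrix.map_sub _ (map_sub _), Matrix.map_mul, Matrix.map_mul]
  rfl

theorem sha0 : SHA0 := by
  have hF := finrC
  intro A _ _ _ _ t ρ T D ht hf hN
  classical
  have t0 : t ≠ 0 := ht.ne_zero
  obtain ⟨δ, hδ, hsp⟩ := hN.irr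
  obtain ⟨e, u, hu⟩ := ex_e ht hδ 4
  obtain ⟨T₁, D₁, a1, a2, a3, a4⟩ := detect hF ht hf hN e
  have step : ∀ c, ZA ρ T (t ^ (e + 1)) c → LA ρ T₁ D₁ (t ^ (e + 1)) c →
      ∃ M b c', Bs ρ (t ^ e) M b ∧ c = b + t • c' := by
    intro c h1 h2
    have h3 := (za_iff _ _).2 h1
    obtain ⟨M, hM⟩ := Car.car (coc_of h3.1) (sp_rd hsp (tI t (e + 1)) (H := ⊤) le_top) 1
      (fun g _ => by
        simp only [one_mul]
        rw [mr_rd, red, ← Matrix.map_mul, tr_map]
        exact Ideal.Quotient.eq_zero_iff_mem.2 (Ideal.mem_span_singleton.2 (a4 c h1 h2 g)))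
    obtain ⟨M, rfl⟩ := ex_lift _ M
    have h4 : ∀ g, Dv (t ^ (e + 1)) (t ^ e • c g - (u • M - mr ρ g * (u • M) * mr ρ g⁻¹)) := by
      intro g
      have h5 := hM g trivial
      have h6 : Dv (t ^ (e + 1)) (δ ^ 4 • (c g * mr ρ g) - (M * mr ρ g - mr ρ g * M)) := by
        rw [← dv_iff', Matrix.map_sub _ (map_sub _), Matrix.map_mul, Matrix.map_mul]
        refine Eq.trans ?_ h5
        ext i j
        simp [red, mr_rd, Matrix.mul_apply]
      obtain ⟨X, hX⟩ := h6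
      refine ⟨u • (X * mr ρ g⁻¹), ?_⟩
      rw [smul_comm, ← smul_mul_assoc, ← hX, hu, mul_smul, mul_smul_comm, smul_mul_assoc,
        ← smul_sub, ← smul_sub, sub_mul, sub_mul, smul_mul_assoc, mul_assoc (c g), mi', mul_one,
        mul_assoc M, mi', mul_one]
    choose X hX using h4
    refine ⟨u • M, c - t • X, X, fun g => ?_, by abel⟩
    rw [Pi.sub_apply, Pi.smul_apply, smul_sub, smul_smul, ← pow_succ, ← hX g, sub_sub_cancel]
  have ind : ∀ k c, ZA ρ T (t ^ (e + k)) c → LA ρ T₁ D₁ (t ^ (e + k)) c →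
      ∃ M b c', Bs ρ (t ^ e) M b ∧ c = b + t ^ k • c' ∧ ZA ρ T (t ^ e) c' := by
    intro k
    induction k with
    | zero => exact fun c h1 _ => ⟨0, 0, c, fun g => by simp, by simp, h1⟩
    | succ k ih =>
      intro c h1 h2
      have dv : t ^ (e + 1) ∣ t ^ (e + (k + 1)) := pow_dvd_pow t (by omega)
      obtain ⟨M, b, c1, hb, rfl⟩ := step c (h1.of_dvd dv)
        fun l hl φ hφ C hC => dv.trans (h2 l hl φ hφ C hC)
      obtain ⟨M1, b1, c', hb1, rfl, hc'⟩ := ih c1 (by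
        refine ZA.cancel t0 ?_
        have := h1.sub (za0 t0 hN hb _)
        rwa [add_sub_cancel_left, ← add_assoc, pow_succ] at this) (by
        intro l hl φ hφ C hC
        have := h2 l hl φ hφ C hC
        rw [Pi.add_apply, mul_add, Matrix.trace_add, hb.tr (pow_ne_zero e t0) hC, zero_add,
          Pi.smul_apply, mul_smul_comm, Matrix.trace_smul, smul_eq_mul, ← add_assoc,
          pow_succ'] at this
        exact (mul_dvd_mul_iff_left t0).1 this)
      refine ⟨M + t • M1, b + t • b1, c', fun g => ?_, ?_, hc'⟩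
      · rw [Pi.add_apply, Pi.smul_apply, smul_add, smul_comm, hb g, hb1 g, mul_add, add_mul,
          mul_smul_comm, smul_mul_assoc, smul_sub]
        abel
      · rw [smul_add, smul_smul, ← pow_succ', add_assoc]
  have fin : ∀ N, (H1R (rd (tI t N) ρ) T).Finite := fun N =>
    haveI := fin_tI hf N
    hF _ _ T (two_q _) (hN.lv N).opn
  set B := ∑ n ∈ Finset.range (e + 1), Nat.card (H1R (rd (tI t n) ρ) T) with hB
  have le : ∀ n ≤ e, Nat.card (H1R (rd (tI t n) ρ) T) ≤ B := fun n hn =>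
    Finset.single_le_sum (f := fun n => Nat.card (H1R (rd (tI t n) ρ) T))
      (fun _ _ => Nat.zero_le _) (Finset.mem_range.2 (by omega))
  refine ⟨T₁, D₁, B * Nat.card (A ⧸ tI t e) ^ 3, a1, a2, a3, fun N => ?_⟩
  haveI := fin_tI hf N
  haveI := fin_tI hf e
  let S : Set (GQ → M2 (A ⧸ tI t N)) := {c | ∃ a, TanR (rd (tI t N) ρ) T₁ ∅ D₁ c a}
  have hS : S ⊆ H1R (rd (tI t N) ρ) T := fun c ⟨a, h⟩ => h1_of (hN.lv N) a3 h
  refine (tan_le S ((fin N).subset hS) fun c a h => ⟨a, h⟩).2.trans ?_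
  have key : Nat.card S ≤ B * Nat.card (A ⧸ tI t e) ^ 3 * Nat.card (A ⧸ tI t N) ^ 3 := by
    by_cases hNe : N ≤ e
    · refine ((Nat.card_mono (fin N) hS).trans (le N hNe)).trans ?_
      rw [mul_assoc]
      exact Nat.le_mul_of_pos_right _ (mul_pos (pow_pos Nat.card_pos _) (pow_pos Nat.card_pos _))
    obtain ⟨k, rfl⟩ : ∃ k, N = e + k := ⟨N - e, by omega⟩
    haveI := fin_tI hf (e + k + e)
    haveI := (fin e).to_subtype
    have h1 := (card_le_rel (X := H1R (rd (tI t e) ρ) T × (Fin 3 → A ⧸ tI t (e + k + e))) S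
      (fun s x => ∃ M b c', Bs ρ (t ^ e) M b ∧ s = red (tI t (e + k)) (b + t ^ k • c') ∧
        red (tI t e) c' = x.1.1 ∧ x.2 = fun i => Ideal.Quotient.mk _
          (![M 0 1, M 1 0, M 1 1 - M 0 0] i)) ?_ ?_).2
    · refine h1.trans ?_
      rw [Nat.card_prod, Nat.card_fun, Nat.card_eq_fintype_card (α := Fin 3), Fintype.card_fin,
        mul_assoc, ← mul_pow, mul_comm (Nat.card (A ⧸ tI t e))]
      exact Nat.mul_le_mul (le e le_rfl) (Nat.pow_le_pow_left (card_add hf _ _) 3)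
    · rintro s ⟨a, h⟩
      obtain ⟨c, rfl⟩ := red_surj _ s
      obtain ⟨M, b, c', hb, rfl, hc'⟩ := ind k c ((za_iff _ _).1 (hS ⟨a, h⟩)) (by
        intro l hl φ hφ C hC
        have h2 := tr_cob (ρ := rd (tI t (e + k)) ρ) (C.map (Ideal.Quotient.mk _)) (a l) (g := φ)
          (by rw [mr_rd, ← Matrix.map_mul, hC, Matrix.map_mul])
        rw [← h.loc l hl φ hφ, red, ← Matrix.map_mul, tr_map] at h2
        exact Ideal.mem_span_singleton.1 (Ideal.Quotient.eq_zero_iff_mem.1 h2))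
      exact ⟨(⟨red _ c', (za_iff _ _).2 hc'⟩, _), M, b, c', hb, rfl, rfl, rfl⟩
    · rintro _ - _ - x ⟨M, b, c, hb, rfl, h1, h2⟩ ⟨M', b', c', hb', rfl, k1, k2⟩
      funext g
      simp only [red]
      rw [dv_iff']
      have d1 : Dv (t ^ (e + k)) (t ^ k • (c g - c' g)) := by
        rw [pow_add]
        exact ((dv_iff' _ _ _).1 (congrFun (h1.trans k1.symm) g)).smul _
      have d2 : Dv (t ^ (e + k)) (b g - b' g) := by
        refine Dv.cancel (pow_ne_zero e t0) ?_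
        have d3 : Dv (t ^ (e + k + e)) (M - M' - (M 0 0 - M' 0 0) • (1 : M2 A)) := by
          rw [← dv_iff]
          have z := fun i => congrFun (h2.symm.trans k2) i
          have z0 := z 0
          have z1 := z 1
          have z2 := z 2
          simp only [Matrix.cons_val_zero, Matrix.cons_val_one, Matrix.cons_val, map_sub] at z0 z1 z2
          ext i j
          fin_cases i <;> fin_cases j <;> simp [z0, z1]
          linear_combination z2
        have d4 := d3.sub (d3.mul (mr ρ g) (mr ρ g⁻¹))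
        rw [← pow_add, smul_sub, hb g, hb' g]
        convert d4 using 1
        rw [mul_sub, sub_mul, mul_smul_comm, smul_mul_assoc, mul_one, mi', mul_sub, sub_mul]
        abel
      convert d2.add d1 using 1
      simp only [Pi.add_apply, Pi.smul_apply, smul_sub]
      abel
  calc Nat.card S * Nat.card (FxR (rd (tI t N) ρ) T₁ D₁)
      ≤ B * Nat.card (A ⧸ tI t e) ^ 3 * Nat.card (A ⧸ tI t N) ^ 3 *
        Nat.card (FxR (rd (tI t N) ρ) T₁ D₁) := Nat.mul_le_mul_right _ key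
    _ = _ := by ring

end P022S.Sel.Sh
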